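import Vale.Agent.P201.Dependence

/-!
Coproducts of division rings are stably finite.
-/

namespace Vale.Agent.P201

set_option linter.unusedSectionVars false

open Matrix

variable {ι : Type*} {D : Type*} [DivisionRing D] {E : ι → Type*} [∀ i, DivisionRing (E i)]
variable {T : ι → Type*} {j : ∀ i, D →+* E i} (C : Coords j T)

open Classical in
/-- The positions of the nonzero entries. -/
noncomputable def nz {R : Type*} [Zero R] {κ : Type*} [Fintype κ] (α : κ → R) : Finset κ :=
  Finset.univ.filter fun k => α k ≠ 0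

theorem mem_nz {R : Type*} [Zero R] {κ : Type*} [Fintype κ] {α : κ → R} {k : κ} :
    k ∈ nz α ↔ α k ≠ 0 := by
  simp [nz]

namespace Coords

theorem exists_typ (α : C.ring) : ∃ d, Typ d none (α.1 (Finsupp.single Word.nil 1)) := by
  obtain ⟨n, hn⟩ := bd_exists (α.1 (Finsupp.single Word.nil (1 : D)))
  exact ⟨n, hn.mono le_rfl fun _ _ _ i hi => absurd hi (by simp), fun h => absurd rfl h⟩

/-- A column operation putting a given combination in one position. -/
theorem exists_transvection {R : Type*} [Ring R] {κ : Type*} [Fintype κ] [DecidableEq κ] (k₀ : κ)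
    (Γ : κ → R) (hu : IsUnit (Γ k₀)) :
    ∃ U : (Matrix κ κ R)ˣ,
      (∀ α : κ → R, α ᵥ* (U : Matrix κ κ R) = Function.update α k₀ (∑ k, α k * Γ k)) ∧
      ∀ v : κ → R, (U : Matrix κ κ R) *ᵥ v
        = fun x => Γ x * v k₀ + if x = k₀ then 0 else v x := by
  obtain ⟨u, hu⟩ := hu
  let M : (κ → R) → Matrix κ κ R := fun c x y => if y = k₀ then c x else if x = y then 1 else 0
  have hv : ∀ (c α : κ → R), α ᵥ* M c = Function.update α k₀ (∑ k, α k * c k) := by
    intro c α
    funext y
    by_cases h : y = k₀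
    · subst h; simp [vecMul, dotProduct, M]
    · simp [vecMul, dotProduct, M, h]
  have hm : ∀ (c v : κ → R), M c *ᵥ v = fun x => c x * v k₀ + if x = k₀ then 0 else v x := by
    intro c v
    funext x
    show ∑ y, M c x y * v y = _
    rw [Fintype.sum_eq_add_sum_compl k₀]
    congr 1
    · simp [M]
    · rw [Finset.sum_congr rfl fun y hy => by
        rw [show M c x y = if x = y then 1 else 0 by simp [M, (by simpa using hy : y ≠ k₀)]]]
      simp only [ite_mul, one_mul, zero_mul, Finset.sum_ite_eq, Finset.mem_compl,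
        Finset.mem_singleton]
      by_cases h : x = k₀ <;> simp [h]
  let c' : κ → R := fun x => if x = k₀ then ↑u⁻¹ else -(Γ x * ↑u⁻¹)
  have h1 : M Γ * M c' = 1 := by
    refine Matrix.ext_of_mulVec_single fun i => ?_
    rw [← Matrix.mulVec_mulVec, hm, hm, one_mulVec]
    funext x
    by_cases hi : i = k₀
    · subst hi
      by_cases hx : x = i <;> simp [c', hx, ← hu]
    · have hki : k₀ ≠ i := fun e => hi e.symm
      by_cases hx : x = k₀
      · subst hx; simp [hki]
      · simp [hx, hki]
  have h2 : M c' * M Γ = 1 := by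
    refine Matrix.ext_of_mulVec_single fun i => ?_
    rw [← Matrix.mulVec_mulVec, hm, hm, one_mulVec]
    funext x
    by_cases hi : i = k₀
    · subst hi
      by_cases hx : x = i <;> simp [c', hx, ← hu]
    · have hki : k₀ ≠ i := fun e => hi e.symm
      by_cases hx : x = k₀
      · subst hx; simp [hki]
      · simp [hx, hki]
  exact ⟨⟨M Γ, M c', h1, h2⟩, hv Γ, hm Γ⟩

/-- A relation can be trivialised: some invertible matrix shortens the row. -/
theorem exists_shorter {κ : Type*} [Fintype κ] [DecidableEq κ]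
    (α β : κ → C.ring) (hβ : β ≠ 0)
    (hsum : α ⬝ᵥ β = 0) (hsupp : ∀ k, α k = 0 → β k = 0) :
    ∃ U : (Matrix κ κ C.ring)ˣ,
      (nz (α ᵥ* (U : Matrix κ κ C.ring))).card
        < (nz α).card := by
  classical
  choose d hd using fun k => C.exists_typ (α k)
  suffices ∀ (s : ℕ) (α β : κ → C.ring) (d : κ → ℕ) (p : κ → Option ι),
      (∀ k, Typ (d k) (p k) ((α k).1 (Finsupp.single Word.nil 1))) → ∑ k, rk (d k) (p k) ≤ s →
      β ≠ 0 → α ⬝ᵥ β = 0 → (∀ k, α k = 0 → β k = 0) →
      ∃ U : (Matrix κ κ C.ring)ˣ,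
        (nz (α ᵥ* (U : Matrix κ κ C.ring))).card
          < (nz α).card from
    this _ α β d (fun _ => none) hd le_rfl hβ hsum hsupp
  intro s
  induction s using Nat.strong_induction_on with
  | _ s ih =>
    intro α β d p hT hs hβ hsum hsupp
    obtain ⟨k₀, Γ, hne, hu, hΓ0, hstep⟩ := C.exists_step α β d p hT hβ hsum
    obtain ⟨U, hUv, hUm⟩ := exists_transvection k₀ Γ hu
    have hk₀ : α k₀ ≠ 0 := fun h => hne (hsupp _ h)
    by_cases hA : ∑ k, α k * Γ k = 0
    · refine ⟨U, Finset.card_lt_card ⟨fun k hk => ?_, fun h => ?_⟩⟩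
      · rw [mem_nz, hUv, hA] at hk
        rw [mem_nz]
        by_cases e : k = k₀
        · simp [e] at hk
        · simpa [e] using hk
      · have := h (mem_nz.2 hk₀)
        simp [mem_nz, hUv, hA] at this
    obtain ⟨d', p', hT', hlt⟩ := hstep.resolve_left hA
    set α' := α ᵥ* (U : Matrix κ κ C.ring) with hα'
    set β' := (↑U⁻¹ : Matrix κ κ C.ring) *ᵥ β with hβ'
    have hUβ : (U : Matrix κ κ C.ring) *ᵥ β' = β := by
      rw [hβ', mulVec_mulVec, Units.mul_inv, one_mulVec]
    have hz : ∀ k, α k = 0 ↔ α' k = 0 := fun k => by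
      rw [hα', hUv]
      by_cases e : k = k₀
      · subst e; simp [hA, hk₀]
      · simp [e]
    have hsum' : α' ⬝ᵥ β' = 0 := by rw [hα', ← dotProduct_mulVec, hUβ, hsum]
    have hne' : β' ≠ 0 := fun h => hβ (by rw [← hUβ, h, mulVec_zero])
    have hsupp' : ∀ k, α' k = 0 → β' k = 0 := fun k hk => by
      have hk' := (hz k).2 hk
      have hb := hsupp k hk'
      have h := congrFun hUβ k
      simp only [hUm] at h
      rw [hΓ0 k hb, zero_mul, zero_add, if_neg fun e => hk₀ (by rwa [← e])] at h
      exact h.trans hb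
    obtain ⟨U', hU'⟩ := ih (∑ k, rk (Function.update d k₀ d' k) (Function.update p k₀ p' k))
      (lt_of_lt_of_le (Finset.sum_lt_sum (fun k _ => by
          by_cases e : k = k₀
          · subst e; simpa using hlt.le
          · simp [e]) ⟨k₀, Finset.mem_univ _, by simpa using hlt⟩) hs)
      α' β' (Function.update d k₀ d') (Function.update p k₀ p') (fun k => by
        rw [hα', hUv]
        by_cases e : k = k₀
        · subst e; simpa using hT'
        · simpa [e] using hT k)
      le_rfl hne' hsum' hsupp'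
    refine ⟨U * U', ?_⟩
    have e : nz α = nz α' := Finset.ext fun k => by rw [mem_nz, mem_nz, ne_eq, ne_eq, hz k]
    rw [e, Units.val_mul, ← vecMul_vecMul]
    exact hU'

theorem noZeroDivisors_ring : NoZeroDivisors C.ring := by
  refine ⟨fun {a b} h => ?_⟩
  rcases C.eq_zero_or_eq_zero a.2 b.2 (congrArg Subtype.val h) with h' | h'
  · exact Or.inl (Subtype.ext h')
  · exact Or.inr (Subtype.ext h')

theorem nontrivial_ring : Nontrivial C.ring := by
  refine ⟨⟨0, 1, fun h => ?_⟩⟩
  have := congrArg (fun z : C.ring => z.1 (Finsupp.single Word.nil (1 : D)) Word.nil) h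
  simp [end_zero, end_one] at this

end Coords

section Abstract

variable {R : Type*} [Ring R]

/-- Relations shorten rows. -/
def Shortens (R : Type*) [Ring R] : Prop :=
  ∀ (κ : Type) [Fintype κ] [DecidableEq κ] (α β : κ → R), β ≠ 0 → α ⬝ᵥ β = 0 →
    (∀ k, α k = 0 → β k = 0) → ∃ U : (Matrix κ κ R)ˣ, (nz (α ᵥ* (U : Matrix κ κ R))).card < (nz α).card

variable [NoZeroDivisors R] [Nontrivial R] (hR : Shortens R)
include hR

/-- A unimodular row can be completed. -/
theorem exists_completion {κ : Type} [Fintype κ] [DecidableEq κ] (a b : κ → R)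
    (hab : a ⬝ᵥ b = 1) :
    ∃ (U : (Matrix κ κ R)ˣ) (k : κ), a ᵥ* (U : Matrix κ κ R) = Pi.single k 1 := by
  classical
  suffices ∀ (s : ℕ) (a b : κ → R), (nz a).card ≤ s →
      a ⬝ᵥ b = 1 → ∃ (U : (Matrix κ κ R)ˣ) (k : κ),
        a ᵥ* (U : Matrix κ κ R) = Pi.single k 1 from this _ a b le_rfl hab
  intro s
  induction s using Nat.strong_induction_on with
  | _ s ih =>
    intro a b₀ hs hab₀
    set b : κ → R := fun k => if a k = 0 then 0 else b₀ k with hb
    have hab : a ⬝ᵥ b = 1 := by
      rw [← hab₀]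
      refine Finset.sum_congr rfl fun k _ => ?_
      by_cases h : a k = 0 <;> simp [hb, h]
    obtain ⟨k, hk⟩ : ∃ k, a k ≠ 0 := by
      by_contra h
      push Not at h
      simp [dotProduct, h] at hab
    by_cases hone : ∀ l, l ≠ k → a l = 0
    · have h1 : a k * b k = 1 := by
        rw [← hab, dotProduct, Finset.sum_eq_single k (fun l _ hl => by simp [hone l hl]) (by simp)]
      have h2 : b k * a k = 1 := by
        have : a k * (b k * a k - 1) = 0 := by rw [mul_sub, ← mul_assoc, h1, one_mul, mul_one, sub_self]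
        exact sub_eq_zero.1 ((mul_eq_zero.1 this).resolve_left hk)
      refine ⟨Units.map (Matrix.diagonalRingHom κ R).toMonoidHom
        (MulEquiv.piUnits.symm fun x => if x = k then ⟨b k, a k, h2, h1⟩ else 1), k, ?_⟩
      funext x
      simp only [Units.coe_map, RingHom.toMonoidHom_eq_coe, MonoidHom.coe_coe,
        Matrix.diagonalRingHom_apply, vecMul_diagonal]
      by_cases e : x = k
      · subst e; simp [h1, MulEquiv.piUnits]
      · simp [e, hone x e, MulEquiv.piUnits]
    push Not at hone
    obtain ⟨l, hlk, hl⟩ := hone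
    obtain ⟨t, ht, hδ⟩ : ∃ t, a t ≠ 0 ∧ (fun x => (if x = t then 1 else 0) - b x * a t) ≠ 0 := by
      by_contra h
      push Not at h
      have h1 := congrFun (h l hl) k
      simp only [if_neg hlk.symm, Pi.zero_apply, zero_sub, neg_eq_zero] at h1
      have h2 := congrFun (h k hk) k
      simp only [if_pos, Pi.zero_apply] at h2
      have hbk : b k = 0 := (mul_eq_zero.1 h1).resolve_right hl
      simp [hbk] at h2
    set δ : κ → R := fun x => (if x = t then 1 else 0) - b x * a t with hδdef
    obtain ⟨U, hU⟩ := hR κ a δ hδ (by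
        have : a ⬝ᵥ δ = a t - (a ⬝ᵥ b) * a t := by
          simp [dotProduct, hδdef, mul_sub, Finset.sum_sub_distrib, Finset.sum_mul, mul_assoc]
        rw [this, hab, one_mul, sub_self])
      (fun x hx => by
        have hxt : x ≠ t := fun e => ht (e ▸ hx)
        simp [hδdef, hb, hx, hxt])
    obtain ⟨U', k', hU'⟩ := ih _ (lt_of_lt_of_le hU hs) (a ᵥ* (U : Matrix κ κ R))
      ((↑U⁻¹ : Matrix κ κ R) *ᵥ b) le_rfl (by
        rw [← dotProduct_mulVec, mulVec_mulVec, Units.mul_inv, one_mulVec, hab])
    exact ⟨U * U', k', by rw [Units.val_mul, ← vecMul_vecMul, hU']⟩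

/-- One-sided inverse square matrices are inverse. -/
theorem matrix_comm : ∀ (n : ℕ) (κ ν : Type) [Fintype κ] [Fintype ν] [DecidableEq κ]
    [DecidableEq ν], Fintype.card κ = n → Fintype.card ν = n →
    ∀ (A : Matrix κ ν R) (B : Matrix ν κ R), A * B = 1 → B * A = 1 := by
  intro n
  induction n with
  | zero =>
    intro κ ν _ _ _ _ _ hν A B _
    haveI := Fintype.card_eq_zero_iff.1 hν
    exact Matrix.ext fun i => isEmptyElim i
  | succ n ih =>
    intro κ ν _ _ _ _ hκ hν A₀ B₀ h₀
    haveI : Nonempty κ := Fintype.card_pos_iff.1 (hκ ▸ n.succ_pos)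
    obtain ⟨r⟩ := ‹Nonempty κ›
    obtain ⟨U, k, hU⟩ := exists_completion hR (A₀ r) (fun x => B₀ x r) (by
      have := congrFun (congrFun h₀ r) r
      simpa [Matrix.mul_apply, dotProduct] using this)
    obtain ⟨U, V, hUV, hVU⟩ := U
    simp only at hU
    suffices key : (V * B₀) * (A₀ * U) = 1 by
      calc B₀ * A₀ = (U * V) * (B₀ * A₀) * (U * V) := by rw [hUV, Matrix.one_mul, Matrix.mul_one]
        _ = U * ((V * B₀) * (A₀ * U)) * V := by simp only [Matrix.mul_assoc]
        _ = 1 := by rw [key, Matrix.mul_one, hUV]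
    set A := A₀ * U with hA
    set B := V * B₀
    have h : A * B = 1 := by
      rw [hA, Matrix.mul_assoc, ← Matrix.mul_assoc U, hUV, Matrix.one_mul, h₀]
    have hrow : ∀ y, A r y = if y = k then 1 else 0 := fun y => by
      have := congrFun hU y
      simpa [hA, Pi.single_apply, vecMul, dotProduct, Matrix.mul_apply] using this
    have hBk : ∀ c, B k c = if r = c then 1 else 0 := fun c => by
      have := congrFun (congrFun h r) c
      simpa [Matrix.mul_apply, hrow, Matrix.one_apply] using this
    let A' : Matrix {x // x ≠ r} {y // y ≠ k} R := fun x y => A x.1 y.1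
    let B' : Matrix {y // y ≠ k} {x // x ≠ r} R := fun y x => B y.1 x.1
    have h' : A' * B' = 1 := by
      refine Matrix.ext fun x z => ?_
      have := congrFun (congrFun h x.1) z.1
      rw [Matrix.mul_apply, Fintype.sum_eq_add_sum_subtype_ne _ k, hBk, if_neg z.2.symm, mul_zero,
        zero_add] at this
      rw [Matrix.mul_apply]
      simpa [A', B', Matrix.one_apply, Subtype.ext_iff] using this
    have h'' := ih _ _ (by rw [Fintype.card_subtype_compl, hκ]; simp)
      (by rw [Fintype.card_subtype_compl, hν]; simp) A' B' h'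
    refine Matrix.ext fun y z => ?_
    rw [Matrix.mul_apply, Fintype.sum_eq_add_sum_subtype_ne _ r]
    by_cases hy : y = k
    · subst hy
      simp only [hBk, hrow, if_true]
      rw [Finset.sum_eq_zero fun (x : {x // x ≠ r}) _ => by rw [if_neg x.2.symm, zero_mul]]
      simp [Matrix.one_apply, eq_comm]
    by_cases hz : z = k
    · subst hz
      rw [hrow, if_pos rfl, mul_one, Matrix.one_apply_ne hy]
      have hcol : ∀ x : {x // x ≠ r}, A x.1 z = -∑ s : {s // s ≠ z}, A' x s * B s.1 r := fun x => by
        have := congrFun (congrFun h x.1) r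
        rw [Matrix.mul_apply, Fintype.sum_eq_add_sum_subtype_ne _ z, hBk, if_pos rfl, mul_one,
          Matrix.one_apply_ne x.2] at this
        exact eq_neg_of_add_eq_zero_left this
      have hb : ∀ s : {s // s ≠ z}, (B' * A') ⟨y, hy⟩ s = if ⟨y, hy⟩ = s then 1 else 0 := fun s => by
        rw [h'', Matrix.one_apply]
      simp only [hcol, mul_neg, Finset.sum_neg_distrib, Finset.mul_sum, ← mul_assoc]
      rw [Finset.sum_comm]
      simp only [← Finset.sum_mul]
      change B y r + -∑ s, (B' * A') ⟨y, hy⟩ s * B s.1 r = 0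
      simp [hb]
    · rw [hrow, if_neg hz, mul_zero, zero_add]
      have := congrFun (congrFun h'' ⟨y, hy⟩) ⟨z, hz⟩
      rw [Matrix.mul_apply] at this
      simpa [A', B', Matrix.one_apply] using this

end Abstract

namespace Coords

theorem isStablyFiniteRing : IsStablyFiniteRing C.ring :=
  haveI := C.noZeroDivisors_ring
  haveI := C.nontrivial_ring
  ⟨fun n => ⟨fun {a b} h => matrix_comm (R := C.ring) (fun κ [Fintype κ] [DecidableEq κ] α β => C.exists_shorter α β) n (Fin n) (Fin n)
    (Fintype.card_fin n) (Fintype.card_fin n) a b h⟩⟩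

end Coords

/-- No zero divisors and stably finite. -/
def Nice (R : Type*) [Ring R] : Prop := NoZeroDivisors R ∧ IsStablyFiniteRing R

theorem Nice.of_injective {R S : Type*} [Ring R] [Ring S] (f : R →+* S)
    (hf : Function.Injective f) (hS : Nice S) : Nice R :=
  haveI := hS.1
  haveI := hS.2
  ⟨Function.Injective.noZeroDivisors f hf (map_zero f) (map_mul f),
    IsStablyFiniteRing.of_injective f hf⟩

end Vale.Agent.P201
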