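import Vale.Agent.P201.Rational
import Vale.Agent.P201.Trivialise

/-!
Group algebras of amalgams of bi-ordered groups over a free subgroup have no zero divisors and are stably finite.
-/

namespace Vale.Agent.P201

set_option linter.unusedSectionVars false

open Monoid

variable {ι : Type*} {G : ι → Type*} [∀ i, Group (G i)] {α : Type*} {H : Type*} [Group H]

theorem MN.right_coset_independent {A : Type*} [Group A] [LinearOrder A] [MulLeftMono A]
    [MulRightMono A] {K : Type*} [Field K] {H : Subgroup A} (s : Finset A)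
    (hs : ∀ a ∈ s, ∀ b ∈ s, a * b⁻¹ ∈ H → a = b) (d : A → MN A K)
    (hd : ∀ a ∈ s, d a ∈ MN.supported K H) (h : ∑ a ∈ s, d a * MN.ofGroup a = 0) :
    ∀ a ∈ s, d a = 0 := by
  intro a ha
  ext y
  by_cases hy : y ∈ H
  · have := congrArg (fun z => z.coeff (y * a)) h
    simp only [MN.coeff_sum, MN.coeff_zero, Pi.zero_apply] at this
    rw [Finset.sum_eq_single a] at this
    · simpa [MN.ofGroup_apply, MN.mul_single_coeff] using this
    · intro b hb hne
      rw [MN.ofGroup_apply, MN.mul_single_coeff, mul_one]
      by_contra h'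
      have hm := H.mul_mem (H.inv_mem hy) (hd b hb _ h')
      rw [mul_assoc y, inv_mul_cancel_left] at hm
      exact hne (hs a ha b hb hm).symm
    · exact fun hn => absurd ha hn
  · by_contra h'
    exact hy (hd a ha y h')

theorem injective_of_terms {K D W P H : Type*} [Field K] [Ring D] [Group P] [Group H]
    (Ψ : MonoidAlgebra K P →+* AddMonoid.End (W →₀ D)) (ε : MonoidAlgebra K H →+* D)
    (hε : Function.Injective ε) (e : W →₀ D) (wd : P → W) (hd : P → H)
    (hpair : ∀ g g', wd g = wd g' → hd g = hd g' → g = g')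
    (hterm : ∀ g k, Ψ (MonoidAlgebra.single g k) e
      = Finsupp.single (wd g) (ε (MonoidAlgebra.single (hd g) k))) :
    Function.Injective Ψ := by
  classical
  rw [injective_iff_map_eq_zero]
  intro p hp
  have key : Ψ p e = ∑ g ∈ p.coeff.support,
      Finsupp.single (wd g) (ε (MonoidAlgebra.single (hd g) (p.coeff g))) := by
    conv_lhs => rw [← MonoidAlgebra.sum_coeff_single p]
    rw [Finsupp.sum, map_sum]
    refine (AddMonoidHom.finsetSum_apply _ _ e).trans ?_
    exact Finset.sum_congr rfl fun g _ => hterm g _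
  apply MonoidAlgebra.coeff_injective
  ext g
  by_contra hg
  have h0 : ∑ g' ∈ p.coeff.support, Finsupp.single (wd g')
      (ε (MonoidAlgebra.single (hd g') (p.coeff g'))) = 0 := by
    rw [← key, hp]
    rfl
  have h1 := congrArg (fun f : W →₀ D => f (wd g)) h0
  simp only [Finsupp.finsetSum_apply, Finsupp.single_apply, Finsupp.zero_apply] at h1
  rw [← Finset.sum_filter, ← map_sum] at h1
  have h2 := congrArg (fun q : MonoidAlgebra K H => q.coeff (hd g)) (hε (h1.trans (map_zero ε).symm))
  simp only [MonoidAlgebra.coeff_sum, MonoidAlgebra.coeff_single, Finsupp.finsetSum_apply,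
    MonoidAlgebra.coeff_zero, Finsupp.zero_apply] at h2
  rw [Finset.sum_eq_single g] at h2
  · rw [Finsupp.single_eq_same] at h2
    exact hg (by simpa using h2)
  · intro g' hg' hne
    exact Finsupp.single_eq_of_ne fun e' => hne (hpair _ _ (Finset.mem_filter.1 hg').2 e'.symm)
  · intro hn
    exfalso
    apply hn
    rw [Finset.mem_filter]
    exact ⟨Finsupp.mem_support_iff.2 (by simpa using hg), rfl⟩

theorem nice_of_coords {K : Type*} [Field K] {D : Type*}
    [∀ i, LinearOrder (G i)] [∀ i, MulLeftMono (G i)] [∀ i, MulRightMono (G i)]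
    (φ : ∀ i, H →* G i) (hφ : ∀ i, Function.Injective (φ i)) (i₀ : ι)
    [DecidableEq ι] [∀ i, DecidableEq (G i)]
    (d : PushoutI.NormalWord.Transversal φ) [DivisionRing D] {T : ι → Type*}
    (j : ∀ i, D →+* MN (G i) K) (C : Coords j T) (τ : ∀ i (g : G i), g ∈ d.set i → g ≠ 1 → T i)
    (hτ : ∀ i g hg hg1, C.b i (some (τ i g hg hg1)) = MN.ofGroup g)
    (ε : MonoidAlgebra K H →+* D) (hε : ∀ i p, j i (ε p) = theta φ i p) :
    Nice (MonoidAlgebra K (PushoutI φ)) := by
  classical
  let u : ∀ i, G i →* (MN (G i) K)ˣ := fun i => (MN.ofGroup : G i →* MN (G i) K).toHomUnits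
  let θ : H →* D :=
    (ε).toMonoidHom.comp (MonoidAlgebra.of K H)
  let Φ : PushoutI φ →* (AddMonoid.End (Word T →₀ D))ˣ :=
    PushoutI.lift (fun i => (Units.map (C.L i).toMonoidHom).comp (u i))
      ((Units.map (Coords.scal (T := T)).toMonoidHom).comp θ.toHomUnits)
      (fun i => MonoidHom.ext fun g => Units.ext (by
        show C.L i (MN.ofGroup (φ i g)) = Coords.scal (θ g)
        rw [← C.L_j i]
        congr 1
        show _ = j i (ε (MonoidAlgebra.single g 1))
        rw [hε, theta_single, map_one, one_mul]))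
  let κ : K →+* D :=
    (ε).comp MonoidAlgebra.singleOneRingHom
  have hκ : ∀ i k, j i (κ k) = algebraMap K (MN (G i) K) k := fun i k => by
    show j i (ε (MonoidAlgebra.single 1 k)) = _
    rw [hε, theta_single]
    simp
  have hcommL : ∀ k i (a : MN (G i) K),
      Coords.scal (T := T) (κ k) * C.L i a = C.L i a * Coords.scal (κ k) := fun k i a => by
    rw [← C.L_j i, ← map_mul, ← map_mul, hκ, Algebra.commutes]
  have hcomm : ∀ k g, Commute (Coords.scal (T := T) (κ k)) ((Φ g : (AddMonoid.End (Word T →₀ D))ˣ) : AddMonoid.End (Word T →₀ D)) := by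
    intro k g
    induction g using PushoutI.induction_on with
    | of i g =>
      show _ * _ = _ * _
      simp only [Φ, PushoutI.lift_of]
      exact hcommL k i _
    | base h =>
      show _ * _ = _ * _
      simp only [Φ, PushoutI.lift_base]
      show Coords.scal (T := T) (κ k) * Coords.scal (θ h) = Coords.scal (θ h) * Coords.scal (κ k)
      rw [← C.L_j i₀ (θ h)]
      exact hcommL k i₀ _
    | mul x y hx hy => rw [map_mul, Units.val_mul]; exact hx.mul_right hy
  let Ψ : MonoidAlgebra K (PushoutI φ) →+* AddMonoid.End (Word T →₀ D) :=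
    MonoidAlgebra.liftNCRingHom ((Coords.scal (T := T)).comp κ)
      ((Units.coeHom _).comp Φ) fun k g => hcomm k g
  have hring : ∀ p, Ψ p ∈ C.ring := by
    intro p
    have hg : ∀ g, ((Φ g : (AddMonoid.End (Word T →₀ D))ˣ) : AddMonoid.End (Word T →₀ D)) ∈ C.ring := by
      intro g
      induction g using PushoutI.induction_on with
      | of i g => simp only [Φ, PushoutI.lift_of]; exact C.L_mem _ _
      | base h => simp only [Φ, PushoutI.lift_base]; exact C.scal_mem _
      | mul x y hx hy => rw [map_mul, Units.val_mul]; exact mul_mem hx hy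
    induction p using MonoidAlgebra.induction_linear with
    | zero => rw [map_zero]; exact zero_mem _
    | add x y hx hy => rw [map_add]; exact add_mem hx hy
    | single g k =>
      have e : Ψ (MonoidAlgebra.single g k) = Coords.scal (T := T) (κ k) * ((Φ g : (AddMonoid.End (Word T →₀ D))ˣ) : AddMonoid.End (Word T →₀ D)) :=
        MonoidAlgebra.liftNCRingHom_single _ _ _ _ _
      rw [e]
      exact mul_mem (C.scal_mem _) (hg g)
  -- letters of normal words
  let letters : PushoutI.NormalWord d → List (Σ i, T i) := fun w =>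
    w.toList.pmap (fun s (hs : s.2 ∈ d.set s.1 ∧ s.2 ≠ 1) => (⟨s.1, τ s.1 s.2 hs.1 hs.2⟩ : Σ i, T i))
      (fun s hs => ⟨w.normalized s.1 s.2 hs, w.ne_one s hs⟩)
  have hmap : ∀ w, (letters w).map Sigma.fst = w.toList.map Sigma.fst := fun w => by
    simp [letters, List.map_pmap, List.pmap_eq_map]
  have hchain : ∀ w, (letters w).IsChain fun a b => a.1 ≠ b.1 := fun w => by
    have h1 := (List.isChain_map (R := fun a b : ι => a ≠ b) Sigma.fst).2 w.chain_ne
    rw [← hmap] at h1
    exact (List.isChain_map (R := fun a b : ι => a ≠ b) Sigma.fst).1 h1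
  let word : PushoutI.NormalWord d → Word T := fun w => ⟨letters w, hchain w⟩
  have hΦ : ∀ w : PushoutI.NormalWord d,
      ((Φ w.prod : (AddMonoid.End (Word T →₀ D))ˣ) : AddMonoid.End (Word T →₀ D))
        (Finsupp.single Word.nil 1) = Finsupp.single (word w) (θ w.head) := by
    intro w
    have hl : ∀ (l : List (Σ i, G i)) (h : ∀ s ∈ l, s.2 ∈ d.set s.1 ∧ s.2 ≠ 1),
        ((Φ (PushoutI.ofCoprodI (φ := φ) ((l.map fun s => CoprodI.of s.2).prod)) :
          (AddMonoid.End (Word T →₀ D))ˣ) : AddMonoid.End (Word T →₀ D))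
          = C.opW (l.pmap (fun s hs => ⟨s.1, τ s.1 s.2 hs.1 hs.2⟩) h) := by
      intro l
      induction l with
      | nil => intro h; simp [Coords.opW]
      | cons s l ih =>
        intro h
        rw [List.map_cons, List.prod_cons, map_mul, map_mul, Units.val_mul, PushoutI.ofCoprodI_of,
          List.pmap_cons, C.opW_cons, ← ih (fun x hx => h x (List.mem_cons_of_mem _ hx))]
        congr 1
        simp only [Φ, PushoutI.lift_of]
        show C.L s.1 (MN.ofGroup s.2) = _
        rw [hτ]
    have he : C.opW (word w).1 (Finsupp.single Word.nil 1) = Finsupp.single (word w) 1 :=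
      C.opW_nil (word w)
    rw [PushoutI.NormalWord.prod, map_mul, Units.val_mul, end_mul, CoprodI.Word.prod,
      hl w.toList fun s hs => ⟨w.normalized s.1 s.2 hs, w.ne_one s hs⟩]
    rw [he]
    simp only [Φ, PushoutI.lift_base]
    show Coords.scal (θ w.head) (Finsupp.single (word w) 1) = _
    rw [Coords.scal_single, mul_one]
  have hword : ∀ w w' : PushoutI.NormalWord d, word w = word w' → w.head = w'.head → w = w' := by
    intro w w' h1 h2
    refine PushoutI.NormalWord.ext h2 ?_
    have key : ∀ (l l' : List (Σ i, G i)) (h : ∀ s ∈ l, s.2 ∈ d.set s.1 ∧ s.2 ≠ 1)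
        (h' : ∀ s ∈ l', s.2 ∈ d.set s.1 ∧ s.2 ≠ 1),
        l.pmap (fun s hs => (⟨s.1, τ s.1 s.2 hs.1 hs.2⟩ : Σ i, T i)) h
          = l'.pmap (fun s hs => ⟨s.1, τ s.1 s.2 hs.1 hs.2⟩) h' → l = l' := by
      intro l
      induction l with
      | nil => intro l' h h' e; cases l' with
        | nil => rfl
        | cons a b => simp at e
      | cons a l ih =>
        intro l' h h' e
        cases l' with
        | nil => simp at e
        | cons b l' =>
          rw [List.pmap_cons, List.pmap_cons, List.cons.injEq] at e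
          rw [ih l' _ _ e.2]
          congr 1
          obtain ⟨i, g⟩ := a
          obtain ⟨k, g'⟩ := b
          obtain ⟨rfl, e'⟩ := Sigma.mk.injEq _ _ _ _ ▸ e.1
          have h3 := congrArg (fun z : T i => (C.b i (some z)).coeff g) (eq_of_heq e')
          simp only [hτ, MN.ofGroup_apply, MN.coeff_single, if_true] at h3
          by_cases hg : g = g'
          · rw [hg]
          · rw [if_neg hg] at h3
            exact absurd h3 one_ne_zero
    exact key _ _ _ _ (congrArg Subtype.val h1)
  let nw : PushoutI φ → PushoutI.NormalWord d := fun g => PushoutI.NormalWord.equiv g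
  have hnw : ∀ g, (nw g).prod = g := fun g => PushoutI.NormalWord.equiv.symm_apply_apply g
  have hpair : ∀ g g', word (nw g) = word (nw g') → (nw g).head = (nw g').head → g = g' :=
    fun g g' h1 h2 => by rw [← hnw g, ← hnw g', hword _ _ h1 h2]
  have hεinj : Function.Injective ε := fun x y h =>
    theta_injective φ (hφ i₀) (by rw [← hε, ← hε, h])
  have hterm : ∀ g k, Ψ (MonoidAlgebra.single g k) (Finsupp.single Word.nil 1)
      = Finsupp.single (word (nw g)) (ε (MonoidAlgebra.single (nw g).head k)) := fun g k => by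
    have e : Ψ (MonoidAlgebra.single g k) = Coords.scal (T := T) (κ k) * ((Φ g : (AddMonoid.End (Word T →₀ D))ˣ) : AddMonoid.End (Word T →₀ D)) :=
      MonoidAlgebra.liftNCRingHom_single _ _ _ _ _
    have e2 := hΦ (nw g)
    rw [hnw g] at e2
    rw [e, end_mul, e2, Coords.scal_single]
    congr 1
    show ε (MonoidAlgebra.single 1 k) * ε (MonoidAlgebra.single (nw g).head 1) = _
    rw [← map_mul, MonoidAlgebra.single_mul_single, one_mul, mul_one]
  have hinj : Function.Injective Ψ :=
    injective_of_terms Ψ ε hεinj (Finsupp.single Word.nil 1) (fun g => word (nw g))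
      (fun g => (nw g).head) hpair hterm
  exact Nice.of_injective (Ψ.codRestrict C.ring hring)
    (fun x y h => hinj (congrArg Subtype.val h))
    ⟨C.noZeroDivisors_ring, C.isStablyFiniteRing⟩

theorem nice_pushout_of_transfers {K : Type*} [Field K] [Nonempty ι]
    [∀ i, LinearOrder (G i)] [∀ i, MulLeftMono (G i)] [∀ i, MulRightMono (G i)]
    (φ : ∀ i, H →* G i) (hφ : ∀ i, Function.Injective (φ i)) (hT : Transfers K φ) :
    Nice (MonoidAlgebra K (PushoutI φ)) := by
  classical
  obtain ⟨i₀⟩ := ‹Nonempty ι›
  haveI : Nontrivial (commonRing K φ) := ⟨⟨0, 1, fun h => zero_ne_one (α := MN (G i₀) K) (by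
    simpa using congrArg (commonHom K φ i₀) h)⟩⟩
  letI : DivisionRing (commonRing K φ) :=
    DivisionRing.ofIsUnitOrEqZero (commonRing_isUnit_or_eq_zero hT)
  letI instMod : ∀ i, Module (commonRing K φ) (MN (G i) K) := fun i =>
    Module.compHom _ (commonHom K φ i)
  have hsmul : ∀ i (c : commonRing K φ) (x : MN (G i) K), c • x = commonHom K φ i c * x :=
    fun i c x => rfl
  obtain ⟨d⟩ := PushoutI.NormalWord.transversal_nonempty φ hφ
  -- representatives of cosets are independent
  have hindep : ∀ i, LinearIndepOn (commonRing K φ) id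
      ((MN.ofGroup : G i →* MN (G i) K) '' d.set i) := by
    intro i
    refine LinearIndepOn.id_image (linearIndepOn_iff'.2 fun s c hs hsum a ha => ?_)
    have h := MN.right_coset_independent (H := (φ i).range) s
      (fun x hx y hy hxy => by
        have hy' := hs hy
        have hu := (d.compl i).1
          (a₁ := (⟨⟨x * y⁻¹, hxy⟩, ⟨y, hy'⟩⟩ : ((φ i).range : Set (G i)) × d.set i))
          (a₂ := ⟨⟨1, one_mem _⟩, ⟨x, hs hx⟩⟩) (by simp)
        exact (congrArg Subtype.val (Prod.ext_iff.1 hu).2).symm)
      (fun x => commonHom K φ i (c x)) (fun x _ => commonHom_mem_supported i _)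
      (by simpa [hsmul] using hsum) a ha
    by_contra hc
    rcases commonRing_isUnit_or_eq_zero hT (c a) with hu | hu
    · exact (hu.map (commonHom K φ i)).ne_zero h
    · exact hc hu
  let B : ∀ i, Module.Basis _ (commonRing K φ) (MN (G i) K) := fun i =>
    Module.Basis.extend (hindep i)
  have hBmem : ∀ i, ∀ g ∈ d.set i, (MN.ofGroup g : MN (G i) K) ∈ (hindep i).extend (Set.subset_univ _) :=
    fun i g hg => (hindep i).subset_extend (Set.subset_univ _) ⟨g, hg, rfl⟩
  let one : ∀ i, ((hindep i).extend (Set.subset_univ ((MN.ofGroup : G i →* MN (G i) K) '' d.set i)) : Set _) :=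
    fun i => ⟨MN.ofGroup 1, hBmem i 1 (d.one_mem i)⟩
  let T : ι → Type _ := fun i => {b // b ≠ one i}
  let eqv : ∀ i, Option (T i) ≃ _ := fun i => Equiv.optionSubtypeNe (one i)
  let C : Coords (fun i => commonHom K φ i) T :=
    { b := fun i o => (eqv i o).1
      b_none := fun i => by
        show ((Equiv.optionSubtypeNe (one i)) none).1 = 1
        rw [Equiv.optionSubtypeNe_none]
        exact map_one _
      r := fun i => (Finsupp.domCongr (eqv i).symm).toAddMonoidHom.comp (B i).repr.toLinearMap.toAddMonoidHom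
      r_sum := fun i a => by
        have h := (B i).linearCombination_repr a
        rw [Finsupp.linearCombination_apply] at h
        conv_rhs => rw [← h]
        simp [Finsupp.sum_equivMapDomain, B, hsmul]
      r_single := fun i o c => by
        have h : commonHom K φ i c * (eqv i o).1 = c • B i (eqv i o) := by
          simp [hsmul, B]
        simp [h, Finsupp.equivMapDomain_single] }
  refine nice_of_coords φ hφ i₀ d (fun i => commonHom K φ i) C
    (fun i g hg hg1 => ⟨⟨MN.ofGroup g, hBmem i g hg⟩, fun e => hg1 (by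
      have h := congrArg (fun z => (z : MN (G i) K).coeff g) (congrArg Subtype.val e)
      simp only [one, MN.ofGroup_apply, MN.coeff_single] at h
      by_contra hne
      simp [hne] at h)⟩)
    (fun i g hg hg1 => ?_) (toCommon K φ) fun i p => commonHom_toCommon i p
  show ((Equiv.optionSubtypeNe (one i)) (some _)).1 = _
  rw [Equiv.optionSubtypeNe_some]

theorem nice_pushout {K : Type*} [Field K] [Nonempty ι]
    [∀ i, LinearOrder (G i)] [∀ i, MulLeftMono (G i)] [∀ i, MulRightMono (G i)]
    (φ : ∀ i, FreeGroup α →* G i) (hφ : ∀ i, Function.Injective (φ i)) :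
    Nice (MonoidAlgebra K (PushoutI φ)) :=
  nice_pushout_of_transfers φ hφ (transfers_free φ hφ)

theorem noZeroDivisors_pushout {K : Type*} [Field K] [Nonempty ι]
    [∀ i, LinearOrder (G i)] [∀ i, MulLeftMono (G i)] [∀ i, MulRightMono (G i)]
    (φ : ∀ i, FreeGroup α →* G i) (hφ : ∀ i, Function.Injective (φ i)) :
    NoZeroDivisors (MonoidAlgebra K (PushoutI φ)) :=
  (nice_pushout φ hφ).1

/-- A group whose algebra over some field has no zero divisors is torsion-free. -/
theorem eq_one_of_isOfFinOrder {K : Type*} [Field K] {P : Type*} [Group P]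
    [NoZeroDivisors (MonoidAlgebra K P)] {g : P} (hg : IsOfFinOrder g) : g = 1 := by
  classical
  set x : MonoidAlgebra K P := MonoidAlgebra.of K P g with hx
  have hn := hg.orderOf_pos
  have h1 : (x - 1) * ∑ k ∈ Finset.range (orderOf g), x ^ k = 0 := by
    rw [mul_geom_sum, hx, ← map_pow, pow_orderOf_eq_one, map_one, sub_self]
  rcases mul_eq_zero.1 h1 with h | h
  · refine MonoidAlgebra.of_injective (R := K) ?_
    rw [map_one]
    exact sub_eq_zero.1 h
  · exfalso
    have h2 := congrArg (fun q : MonoidAlgebra K P => q.coeff 1) h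
    simp only [hx, ← map_pow] at h2
    simp only [MonoidAlgebra.of_apply, MonoidAlgebra.coeff_sum,
      MonoidAlgebra.coeff_single, Finsupp.finsetSum_apply, MonoidAlgebra.coeff_zero,
      Finsupp.zero_apply] at h2
    rw [Finset.sum_eq_single 0] at h2
    · simp at h2
    · intro k hk hk0
      exact Finsupp.single_eq_of_ne (M := K)
        fun e => hk0 (pow_injOn_Iio_orderOf (Set.mem_Iio.2 (Finset.mem_range.1 hk))
          (Set.mem_Iio.2 hn) (by simpa using e.symm))
    · intro h; exact absurd (Finset.mem_range.2 hn) h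

end Vale.Agent.P201
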