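import Mathlib

/-!
Coproducts of division rings over a common division ring have no zero divisors.
-/

namespace Vale.Agent.P201

set_option linter.unusedSectionVars false

universe u

variable {ι : Type*} {D : Type*} [DivisionRing D] {E : ι → Type*} [∀ i, DivisionRing (E i)]

/-- Left coordinates of each ring over the common one, with respect to a basis containing `1`. -/
structure Coords (j : ∀ i, D →+* E i) (T : ι → Type*) where
  /-- the basis -/
  b : ∀ i, Option (T i) → E i
  b_none : ∀ i, b i none = 1
  /-- the coordinates -/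
  r : ∀ i, E i →+ (Option (T i) →₀ D)
  r_sum : ∀ i a, ((r i a).sum fun o c => j i c * b i o) = a
  r_single : ∀ i o c, r i (j i c * b i o) = Finsupp.single o c

variable {T : ι → Type*}

theorem end_mul {M : Type*} [AddZeroClass M] (f g : AddMonoid.End M) (x : M) :
    (f * g) x = f (g x) := rfl

theorem end_one {M : Type*} [AddZeroClass M] (x : M) : (1 : AddMonoid.End M) x = x := rfl

theorem end_add {M : Type*} [AddCommMonoid M] (f g : AddMonoid.End M) (x : M) :
    (f + g) x = f x + g x := rfl

theorem end_zero {M : Type*} [AddCommMonoid M] (x : M) : (0 : AddMonoid.End M) x = 0 := rfl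

/-- Alternating words. -/
abbrev Word (T : ι → Type*) := {l : List (Σ i, T i) // l.IsChain fun a b => a.1 ≠ b.1}

/-- The empty word. -/
def Word.nil : Word T := ⟨[], List.isChain_nil⟩

/-- The first letter is not of side `i`. -/
def NotStart (i : ι) (w : Word T) : Prop := ∀ t ∈ w.1.head?, t.1 ≠ i

/-- The last letter is of side `i`. -/
def EndsIn (i : ι) (w : Word T) : Prop := ∃ t ∈ w.1.getLast?, t.1 = i

/-- The first letter is of side `i`. -/
def StartsIn (i : ι) (w : Word T) : Prop := ∃ t ∈ w.1.head?, t.1 = i

open Classical in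
/-- Put a letter or nothing in front. -/
noncomputable def cons (i : ι) : Option (T i) → Word T → Word T
  | none, w => w
  | some t, w => if h : List.IsChain (fun a b : Σ i, T i => a.1 ≠ b.1) (⟨i, t⟩ :: w.1) then ⟨_, h⟩
      else Word.nil

theorem cons_some {i : ι} {t : T i} {w : Word T} (hw : NotStart i w) :
    (cons i (some t) w).1 = ⟨i, t⟩ :: w.1 := by
  have h : List.IsChain (fun a b : Σ i, T i => a.1 ≠ b.1) (⟨i, t⟩ :: w.1) :=
    List.isChain_cons.2 ⟨fun y hy => (hw y hy).symm, w.2⟩
  simp only [cons, dif_pos h]

theorem exists_split (i : ι) (w : Word T) :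
    ∃ p : Option (T i) × Word T, NotStart i p.2 ∧ cons i p.1 p.2 = w := by
  obtain ⟨l, hl⟩ := w
  cases l with
  | nil => exact ⟨(none, ⟨[], hl⟩), fun t ht => by simp at ht, rfl⟩
  | cons a l =>
    obtain ⟨k, t⟩ := a
    by_cases h : k = i
    · subst h
      have hns : NotStart k (⟨l, (List.isChain_cons.1 hl).2⟩ : Word T) := fun y hy =>
        ((List.isChain_cons.1 hl).1 y hy).symm
      exact ⟨(some t, ⟨l, (List.isChain_cons.1 hl).2⟩), hns, Subtype.ext (cons_some hns)⟩
    · refine ⟨(none, ⟨⟨k, t⟩ :: l, hl⟩), fun y hy => ?_, rfl⟩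
      simp only [List.head?_cons, Option.mem_def, Option.some.injEq] at hy
      subst hy
      exact h

theorem cons_inj {i : ι} {o o' : Option (T i)} {w w' : Word T} (hw : NotStart i w)
    (hw' : NotStart i w') (h : cons i o w = cons i o' w') : o = o' ∧ w = w' := by
  cases o with
  | none =>
    cases o' with
    | none => exact ⟨rfl, h⟩
    | some t' =>
      have e := congrArg Subtype.val h
      rw [cons_some hw'] at e
      exact absurd rfl (hw ⟨i, t'⟩ (by simp only [cons] at e; simp [e]))
  | some t =>
    cases o' with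
    | none =>
      have e := congrArg Subtype.val h
      rw [cons_some hw] at e
      exact absurd rfl (hw' ⟨i, t⟩ (by simp only [cons] at e; simp [← e]))
    | some t' =>
      have e := congrArg Subtype.val h
      rw [cons_some hw, cons_some hw', List.cons.injEq] at e
      exact ⟨congrArg some (eq_of_heq (Sigma.mk.injEq _ _ _ _ ▸ e.1).2), Subtype.ext e.2⟩

/-- The decomposition of a word at side `i`. -/
noncomputable def split (i : ι) (w : Word T) : Option (T i) × Word T :=
  Classical.choose (exists_split i w)

theorem split_notStart (i : ι) (w : Word T) : NotStart i (split i w).2 :=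
  (Classical.choose_spec (exists_split i w)).1

theorem cons_split (i : ι) (w : Word T) : cons i (split i w).1 (split i w).2 = w :=
  (Classical.choose_spec (exists_split i w)).2

theorem split_cons {i : ι} {o : Option (T i)} {w : Word T} (hw : NotStart i w) :
    split i (cons i o w) = (o, w) :=
  have h := cons_inj (split_notStart i _) hw (cons_split i (cons i o w))
  Prod.ext h.1 h.2

theorem split_of_notStart {i : ι} {w : Word T} (hw : NotStart i w) : split i w = (none, w) :=
  split_cons (o := none) hw

theorem cons_cases {i : ι} (o : Option (T i)) {w : Word T} (hw : NotStart i w) :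
    (o = none ∧ cons i o w = w) ∨ ∃ t, o = some t ∧ (cons i o w).1 = ⟨i, t⟩ :: w.1 := by
  cases o with
  | none => exact Or.inl ⟨rfl, rfl⟩
  | some t => exact Or.inr ⟨t, rfl, cons_some hw⟩

variable {j : ∀ i, D →+* E i} (C : Coords j T)

namespace Coords

theorem r_eq_of_sum (i : ι) (f : Option (T i) →₀ D) :
    C.r i (f.sum fun o c => j i c * C.b i o) = f := by
  rw [Finsupp.sum, map_sum]
  simp only [C.r_single]
  exact f.sum_single

/-- One element acting on the words. -/
noncomputable def Lfun (i : ι) (a : E i) : (Word T →₀ D) →+ (Word T →₀ D) :=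
  Finsupp.liftAddHom fun w =>
    { toFun := fun c => Finsupp.mapDomain (fun o => cons i o (split i w).2)
        (C.r i (a * (j i c * C.b i (split i w).1)))
      map_zero' := by simp
      map_add' := fun c c' => by simp [add_mul, mul_add, Finsupp.mapDomain_add] }

theorem Lfun_single (i : ι) (a : E i) (w : Word T) (c : D) :
    C.Lfun i a (Finsupp.single w c) = Finsupp.mapDomain (fun o => cons i o (split i w).2)
      (C.r i (a * (j i c * C.b i (split i w).1))) :=
  Finsupp.liftAddHom_apply_single _ w c

/-- The action of one of the rings on the words. -/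
noncomputable def L (i : ι) : E i →+* AddMonoid.End (Word T →₀ D) where
  toFun a := C.Lfun i a
  map_one' := by
    refine Finsupp.addHom_ext fun w c => ?_
    show C.Lfun i 1 (Finsupp.single w c) = Finsupp.single w c
    rw [C.Lfun_single, one_mul, C.r_single, Finsupp.mapDomain_single, cons_split]
  map_mul' a a' := by
    refine Finsupp.addHom_ext fun w c => ?_
    show C.Lfun i (a * a') (Finsupp.single w c) = C.Lfun i a (C.Lfun i a' (Finsupp.single w c))
    rw [C.Lfun_single, C.Lfun_single]
    conv_rhs => rw [Finsupp.mapDomain, Finsupp.sum, map_sum]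
    simp only [C.Lfun_single, split_cons (split_notStart i w)]
    rw [← Finsupp.mapDomain_finset_sum, ← map_sum (C.r i), ← Finset.mul_sum, mul_assoc]
    congr 3
    exact (C.r_sum i _).symm
  map_zero' := by
    refine Finsupp.addHom_ext fun w c => ?_
    show C.Lfun i 0 (Finsupp.single w c) = 0
    rw [C.Lfun_single, zero_mul, map_zero, Finsupp.mapDomain_zero]
  map_add' a a' := by
    refine Finsupp.addHom_ext fun w c => ?_
    show C.Lfun i (a + a') (Finsupp.single w c)
      = C.Lfun i a (Finsupp.single w c) + C.Lfun i a' (Finsupp.single w c)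
    simp [C.Lfun_single, add_mul, Finsupp.mapDomain_add]

theorem L_single (i : ι) (a : E i) (w : Word T) (c : D) :
    C.L i a (Finsupp.single w c) = Finsupp.mapDomain (fun o => cons i o (split i w).2)
      (C.r i (a * (j i c * C.b i (split i w).1))) :=
  C.Lfun_single i a w c

/-- Left multiplication of the coefficients. -/
noncomputable def scalFun (c : D) : (Word T →₀ D) →+ (Word T →₀ D) :=
  Finsupp.mapRange.addMonoidHom (AddMonoidHom.mulLeft c)

theorem scalFun_single (c : D) (w : Word T) (d : D) :
    scalFun c (Finsupp.single w d) = Finsupp.single w (c * d) := by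
  simp [scalFun]

/-- Left multiplication of all coefficients. -/
noncomputable def scal : D →+* AddMonoid.End (Word T →₀ D) where
  toFun c := scalFun c
  map_one' := Finsupp.addHom_ext fun w c => by
    show scalFun 1 (Finsupp.single w c) = Finsupp.single w c
    rw [scalFun_single, one_mul]
  map_mul' a b := Finsupp.addHom_ext fun w c => by
    show scalFun (a * b) (Finsupp.single w c) = scalFun a (scalFun b (Finsupp.single w c))
    rw [scalFun_single, scalFun_single, scalFun_single, mul_assoc]
  map_zero' := Finsupp.addHom_ext fun w c => by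
    show scalFun 0 (Finsupp.single w c) = 0
    rw [scalFun_single, zero_mul, Finsupp.single_zero]
  map_add' a b := Finsupp.addHom_ext fun w c => by
    show scalFun (a + b) (Finsupp.single w c)
      = scalFun a (Finsupp.single w c) + scalFun b (Finsupp.single w c)
    rw [scalFun_single, scalFun_single, scalFun_single, add_mul, Finsupp.single_add]

theorem scal_single (c : D) (w : Word T) (d : D) :
    scal c (Finsupp.single w d) = Finsupp.single w (c * d) :=
  scalFun_single c w d

theorem L_j (i : ι) (c : D) : C.L i (j i c) = scal c := by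
  refine Finsupp.addHom_ext fun w d => ?_
  show C.Lfun i (j i c) (Finsupp.single w d) = scalFun c (Finsupp.single w d)
  rw [C.Lfun_single, scalFun_single, ← mul_assoc, ← map_mul, C.r_single, Finsupp.mapDomain_single,
    cons_split]

theorem L_b_single (i : ι) (o : Option (T i)) (w : Word T) (hw : NotStart i w) :
    C.L i (C.b i o) (Finsupp.single w 1) = Finsupp.single (cons i o w) 1 := by
  have : C.b i o * (j i 1 * C.b i none) = j i 1 * C.b i o := by simp [C.b_none]
  rw [C.L_single, split_of_notStart hw, this, C.r_single, Finsupp.mapDomain_single]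

/-- The operator of a list of letters. -/
noncomputable def opW (l : List (Σ i, T i)) : AddMonoid.End (Word T →₀ D) :=
  (l.map fun t => C.L t.1 (C.b t.1 (some t.2))).prod

theorem opW_cons (t : Σ i, T i) (l : List (Σ i, T i)) :
    C.opW (t :: l) = C.L t.1 (C.b t.1 (some t.2)) * C.opW l := by
  simp [opW]

theorem opW_append (l l' : List (Σ i, T i)) : C.opW (l ++ l') = C.opW l * C.opW l' := by
  simp [opW]

theorem opW_split (i : ι) (w : Word T) :
    C.opW w.1 = C.L i (C.b i (split i w).1) * C.opW (split i w).2.1 := by
  rcases cons_cases (split i w).1 (split_notStart i w) with ⟨h, h'⟩ | ⟨t, h, h'⟩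
  · rw [h, C.b_none, map_one, one_mul]
    rw [cons_split] at h'
    rw [← h']
  · rw [cons_split] at h'
    rw [h, h', opW_cons]

theorem opW_single : ∀ (l : List (Σ i, T i)) (v : Word T)
    (h : List.IsChain (fun a b : Σ i, T i => a.1 ≠ b.1) (l ++ v.1)),
    C.opW l (Finsupp.single v 1) = Finsupp.single ⟨l ++ v.1, h⟩ 1
  | [], v, h => by simp [opW]
  | t :: l, v, h => by
    have h' := (List.isChain_cons.1 h)
    rw [opW_cons, end_mul,
      opW_single l v h'.2]
    have hns : NotStart t.1 (⟨l ++ v.1, h'.2⟩ : Word T) := fun y hy => (h'.1 y hy).symm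
    rw [C.L_b_single _ _ _ hns]
    congr 1
    exact Subtype.ext (cons_some hns)

theorem opW_nil (w : Word T) : C.opW w.1 (Finsupp.single Word.nil 1) = Finsupp.single w 1 := by
  have h : List.IsChain (fun a b : Σ i, T i => a.1 ≠ b.1) (w.1 ++ (Word.nil : Word T).1) := by
    simpa [Word.nil] using w.2
  rw [C.opW_single w.1 Word.nil h]
  congr 1
  exact Subtype.ext (List.append_nil _)

/-- The operator of a formal element. -/
noncomputable def op : (Word T →₀ D) →+ AddMonoid.End (Word T →₀ D) :=
  Finsupp.liftAddHom fun w => (AddMonoidHom.mulRight (C.opW w.1)).comp scal.toAddMonoidHom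

theorem op_single (w : Word T) (c : D) : C.op (Finsupp.single w c) = scal c * C.opW w.1 :=
  Finsupp.liftAddHom_apply_single _ w c

theorem op_eq_sum (x : Word T →₀ D) : C.op x = ∑ w ∈ x.support, scal (x w) * C.opW w.1 := by
  conv_lhs => rw [← x.sum_single]
  rw [Finsupp.sum, map_sum]
  simp only [op_single]

theorem op_one : C.op (Finsupp.single Word.nil 1) = 1 := by
  simp [op_single, opW, Word.nil]

theorem L_mul_op (i : ι) (a : E i) (x : Word T →₀ D) :
    C.L i a * C.op x = C.op (C.L i a x) := by
  induction x using Finsupp.induction_linear with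
  | zero => simp
  | add x y hx hy => simp [mul_add, hx, hy]
  | single w c =>
    have hleft : C.L i a * C.op (Finsupp.single w c)
        = C.L i (a * (j i c * C.b i (split i w).1)) * C.opW (split i w).2.1 := by
      rw [C.op_single, ← C.L_j i c, C.opW_split i w, map_mul, map_mul, mul_assoc, mul_assoc]
    rw [hleft, C.L_single]
    conv_lhs => rw [← C.r_sum i (a * (j i c * C.b i (split i w).1))]
    rw [Finsupp.mapDomain, Finsupp.sum, Finsupp.sum, map_sum, map_sum, Finset.sum_mul]
    refine Finset.sum_congr rfl fun o _ => ?_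
    rw [C.op_single, map_mul, C.L_j, mul_assoc, C.opW_split i (cons i o (split i w).2),
      split_cons (split_notStart i w)]

/-- The ring generated by the actions. -/
noncomputable def ring : Subring (AddMonoid.End (Word T →₀ D)) :=
  Subring.closure ({x | ∃ i a, C.L i a = x} ∪ Set.range scal)

theorem L_mem (i : ι) (a : E i) : C.L i a ∈ C.ring :=
  Subring.subset_closure (Or.inl ⟨i, a, rfl⟩)

theorem scal_mem (c : D) : (scal c : AddMonoid.End (Word T →₀ D)) ∈ C.ring :=
  Subring.subset_closure (Or.inr ⟨c, rfl⟩)

/-- An element is determined by its value at the empty word. -/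
theorem eq_op {α : AddMonoid.End (Word T →₀ D)} (hα : α ∈ C.ring) :
    α = C.op (α (Finsupp.single Word.nil 1)) := by
  suffices ∀ x, α * C.op x = C.op (α x) by simpa [op_one] using this (Finsupp.single Word.nil 1)
  have hs : ∀ (c : D) (x : Word T →₀ D), scal c * C.op x = C.op (scal c x) := by
    intro c x
    induction x using Finsupp.induction_linear with
    | zero => simp
    | add x y hx hy => simp [mul_add, hx, hy]
    | single w d => rw [scal_single, op_single, op_single, map_mul, mul_assoc]
  refine Subring.closure_induction (p := fun α _ => ∀ x, α * C.op x = C.op (α x)) ?_ ?_ ?_ ?_ ?_ ?_ hα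
  · rintro _ (⟨i, a, rfl⟩ | ⟨c, rfl⟩) x
    · exact C.L_mul_op i a x
    · exact hs c x
  · intro x; simp
  · intro x; simp
  · intro f g _ _ hf hg x
    rw [add_mul, hf, hg, ← map_add]
    rfl
  · intro f _ hf x
    calc -f * C.op x = -(f * C.op x) := AddMonoidHom.ext fun z => rfl
      _ = C.op (-(f x)) := by rw [hf x, map_neg]
      _ = C.op ((-f) x) := rfl
  · intro f g _ _ hf hg x
    rw [mul_assoc, hg, hf]
    rfl

/-! ### Lengths -/

/-- All words have length at most `n`, those of length `n` satisfying `Q`. -/
def Bd (n : ℕ) (Q : Word T → Prop) (x : Word T →₀ D) : Prop :=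
  ∀ w ∈ x.support, w.1.length ≤ n ∧ (w.1.length = n → Q w)

theorem bd_zero (n : ℕ) (Q : Word T → Prop) : Bd (D := D) n Q 0 := by simp [Bd]

theorem Bd.add {n : ℕ} {Q : Word T → Prop} {x y : Word T →₀ D} (hx : Bd n Q x) (hy : Bd n Q y) :
    Bd n Q (x + y) := fun w hw => by
  classical
  rcases Finset.mem_union.1 (Finsupp.support_add hw) with h | h
  · exact hx w h
  · exact hy w h

theorem bd_sum {κ : Type*} {n : ℕ} {Q : Word T → Prop} (s : Finset κ) (f : κ → Word T →₀ D)
    (h : ∀ k ∈ s, Bd n Q (f k)) : Bd n Q (∑ k ∈ s, f k) :=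
  Finset.sum_induction f _ (fun _ _ => Bd.add) (bd_zero n Q) h

theorem Bd.scal {n : ℕ} {Q : Word T → Prop} {x : Word T →₀ D} (hx : Bd n Q x) (c : D) :
    Bd n Q (Coords.scal c x) := fun w hw => hx w (by
      have h : (scalFun c x) w ≠ 0 := Finsupp.mem_support_iff.1 hw
      refine Finsupp.mem_support_iff.2 fun h0 => h ?_
      simp [scalFun, h0])

theorem bd_mapDomain {n : ℕ} {Q : Word T → Prop} {κ : Type*} (g : κ → Word T) (f : κ →₀ D)
    (h : ∀ k, (g k).1.length ≤ n ∧ ((g k).1.length = n → Q (g k))) :
    Bd n Q (Finsupp.mapDomain g f) := fun w hw => by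
  classical
  obtain ⟨k, _, rfl⟩ := Finset.mem_image.1 (Finsupp.mapDomain_support hw)
  exact h k

theorem length_cons_le {i : ι} (o : Option (T i)) {w : Word T} (hw : NotStart i w) :
    w.1.length ≤ (cons i o w).1.length ∧ (cons i o w).1.length ≤ w.1.length + 1 := by
  rcases cons_cases o hw with ⟨_, h⟩ | ⟨t, _, h⟩ <;> simp [h]

theorem length_split_le (i : ι) (w : Word T) :
    (split i w).2.1.length ≤ w.1.length := by
  have := (length_cons_le (split i w).1 (split_notStart i w)).1
  rwa [cons_split] at this

theorem bd_L {n : ℕ} {x : Word T →₀ D} (i : ι) (a : E i) (hx : Bd n (fun _ => True) x) :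
    Bd (n + 1) (fun _ => True) (C.L i a x) := by
  rw [← x.sum_single, Finsupp.sum, map_sum]
  refine bd_sum _ _ fun w hw => ?_
  rw [C.L_single]
  refine bd_mapDomain _ _ fun o => ⟨?_, fun _ => trivial⟩
  have h1 := (length_cons_le o (split_notStart i w)).2
  have h2 := length_split_le i w
  have h3 := (hx w hw).1
  omega

theorem bd_opW : ∀ (l : List (Σ i, T i)) (n : ℕ) (x : Word T →₀ D), Bd n (fun _ => True) x →
    Bd (l.length + n) (fun _ => True) (C.opW l x)
  | [], n, x, hx => by simpa [opW] using hx
  | t :: l, n, x, hx => by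
    rw [opW_cons, end_mul,
      List.length_cons, show l.length + 1 + n = l.length + n + 1 by omega]
    exact C.bd_L _ _ (bd_opW l n x hx)

/-- Applying a ring to a word beginning on its own side does not make it longer. -/
theorem bd_L_starts {n : ℕ} {x : Word T →₀ D} (i : ι) (a : E i)
    (hx : Bd n (StartsIn i) x) : Bd n (fun _ => True) (C.L i a x) := by
  rw [← x.sum_single, Finsupp.sum, map_sum]
  refine bd_sum _ _ fun w hw => ?_
  rw [C.L_single]
  refine bd_mapDomain _ _ fun o => ⟨?_, fun _ => trivial⟩
  have h1 := (length_cons_le o (split_notStart i w)).2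
  have h2 := length_split_le i w
  obtain ⟨h3, h4⟩ := hx w hw
  rcases Nat.lt_or_ge w.1.length n with h5 | h5
  · omega
  · obtain ⟨t, ht, hti⟩ := h4 (by omega)
    rcases cons_cases (split i w).1 (split_notStart i w) with ⟨_, h6⟩ | ⟨t', _, h6⟩
    · rw [cons_split] at h6
      have h7 := split_notStart i w
      rw [← h6] at h7
      exact absurd hti (h7 t ht)
    · rw [cons_split] at h6
      have : (split i w).2.1.length + 1 = w.1.length := by rw [h6]; simp
      omega

theorem L_nil (i : ι) (a : E i) :
    C.L i a (Finsupp.single Word.nil 1) = Finsupp.mapDomain (fun o => cons i o Word.nil) (C.r i a) := by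
  rw [C.L_single, split_of_notStart (w := Word.nil) (fun t ht => by simp [Word.nil] at ht)]
  simp [C.b_none]

theorem endsIn_of_suffix {i : ι} {v w : Word T} {t : Σ i, T i} (h : v.1 = t :: w.1)
    (hw : EndsIn i w) : EndsIn i v := by
  obtain ⟨s, hs, hsi⟩ := hw
  refine ⟨s, ?_, hsi⟩
  have hne : w.1 ≠ [] := fun e => by simp [e] at hs
  rw [h, List.getLast?_cons]
  rw [Option.mem_def] at hs
  simp [hs]

theorem bd_L_ends {m : ℕ} {x : Word T →₀ D} (i k : ι) (a : E k) (hx : Bd m (EndsIn i) x) :
    Bd (m + 1) (EndsIn i) (C.L k a x) := by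
  rw [← x.sum_single, Finsupp.sum, map_sum]
  refine bd_sum _ _ fun w hw => ?_
  rw [C.L_single]
  refine bd_mapDomain _ _ fun o => ?_
  obtain ⟨h3, h4⟩ := hx w hw
  have h2 := length_split_le k w
  rcases cons_cases o (split_notStart k w) with ⟨_, he⟩ | ⟨t, _, he⟩
  · rw [he]
    exact ⟨by omega, fun h => by omega⟩
  · have hlen : (cons k o (split k w).2).1.length = (split k w).2.1.length + 1 := by rw [he]; simp
    refine ⟨by omega, fun h => endsIn_of_suffix he ?_⟩
    rcases cons_cases (split k w).1 (split_notStart k w) with ⟨_, h6⟩ | ⟨t', _, h6⟩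
    · rw [cons_split] at h6
      exact h6 ▸ h4 (by rw [h6]; omega)
    · rw [cons_split] at h6
      have : (split k w).2.1.length + 1 = w.1.length := by rw [h6]; simp
      omega

theorem bd_opW_ends : ∀ (l : List (Σ i, T i)) (m : ℕ) (x : Word T →₀ D) (i : ι),
    Bd m (EndsIn i) x → Bd (l.length + m) (EndsIn i) (C.opW l x)
  | [], m, x, i, hx => by simpa [opW] using hx
  | t :: l, m, x, i, hx => by
    rw [opW_cons, end_mul,
      List.length_cons, show l.length + 1 + m = l.length + m + 1 by omega]
    exact C.bd_L_ends _ _ _ (bd_opW_ends l m x i hx)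

theorem bd_L_nil (i : ι) (a : E i) :
    Bd 1 (EndsIn i) (C.L i a (Finsupp.single Word.nil 1)) := by
  rw [C.L_nil]
  refine bd_mapDomain _ _ fun o => ?_
  have hns : NotStart i (Word.nil : Word T) := fun y hy => by simp [Word.nil] at hy
  rcases cons_cases o hns with ⟨_, he⟩ | ⟨t, _, he⟩
  · rw [he]
    simp [Word.nil]
  · exact ⟨by rw [he]; simp [Word.nil], fun _ => ⟨⟨i, t⟩, by rw [he]; simp [Word.nil], rfl⟩⟩

/-- A word, then one ring, applied to the empty word. -/
theorem bd_opW_L (w : Word T) (i : ι) (a : E i) :
    Bd (w.1.length + 1) (EndsIn i) (C.opW w.1 (C.L i a (Finsupp.single Word.nil 1))) ∧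
    (EndsIn i w → Bd w.1.length (EndsIn i) (C.opW w.1 (C.L i a (Finsupp.single Word.nil 1)))) := by
  refine ⟨C.bd_opW_ends _ _ _ _ (C.bd_L_nil i a), fun ⟨s, hs, hsi⟩ => ?_⟩
  obtain ⟨k, t⟩ := s
  simp only at hsi
  subst hsi
  rcases List.eq_nil_or_concat w.1 with hnil | ⟨p, s, hps⟩
  · simp [hnil] at hs
  rw [List.concat_eq_append] at hps
  have hst : s = ⟨k, t⟩ := by simpa [hps] using hs
  subst hst
  rw [hps, opW_append, show C.opW [(⟨k, t⟩ : Σ i, T i)] = C.L k (C.b k (some t)) by simp [opW],
    end_mul, ← end_mul (C.L k (C.b k (some t))) (C.L k a), ← map_mul, List.length_append,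
    List.length_singleton]
  exact C.bd_opW_ends _ _ _ _ (C.bd_L_nil k _)

end Coords

end Vale.Agent.P201
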