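import Vale.Agent.P201.Descent
import Mathlib.Data.Matrix.Basis
import Mathlib.LinearAlgebra.Matrix.Reindex

/-!
Dependence in coproducts of division rings: a relation between elements can be trivialised by an
invertible matrix.
-/

namespace Vale.Agent.P201

set_option linter.unusedSectionVars false

variable {ι : Type*} {D : Type*} [DivisionRing D] {E : ι → Type*} [∀ i, DivisionRing (E i)]
variable {T : ι → Type*} {j : ∀ i, D →+* E i} (C : Coords j T)

namespace Coords

/-- All longest words end on the prescribed side. -/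
def EndType (p : Option ι) (w : Word T) : Prop := ∀ i, p = some i → EndsIn i w

/-- The first letter avoids the prescribed side. -/
def StartFree (p : Option ι) (w : Word T) : Prop := ∀ i, p = some i → NotStart i w

/-- A degree bound refined by the side of the last letters. -/
def Typ (d : ℕ) (p : Option ι) (x : Word T →₀ D) : Prop :=
  Bd d (EndType p) x ∧ (p ≠ none → 1 ≤ d)

/-- The refined degree. -/
def rk : ℕ → Option ι → ℕ
  | d, none => 2 * d
  | d, some _ => 2 * d - 1

/-- Words as elements of the ring. -/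
noncomputable def wordElt (w : Word T) : C.ring :=
  ⟨C.opW w.1, list_prod_mem fun x hx => by
    obtain ⟨t, _, rfl⟩ := List.mem_map.1 hx
    exact C.L_mem _ _⟩

/-- The common division ring inside the ring. -/
noncomputable def scalElt : D →+* C.ring :=
  (Coords.scal (T := T)).codRestrict _ C.scal_mem

/-- One of the division rings inside the ring. -/
noncomputable def sideElt (i : ι) : E i →+* C.ring := (C.L i).codRestrict _ (C.L_mem i)

theorem bd_single {f : AddMonoid.End (Word T →₀ D)} (hf : f ∈ C.ring) {d : ℕ}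
    (hd : Bd d (fun _ => True) (f (Finsupp.single Word.nil 1))) (q : Word T) :
    Bd (d + q.1.length) (fun _ => True) (f (Finsupp.single q 1)) := by
  rw [C.eq_op hf, C.op_apply]
  refine bd_sum _ _ fun w hw => Bd.scal ?_ _
  exact (C.bd_opW w.1 q.1.length _ fun z hz => ⟨by
    rw [Finset.mem_singleton.1 (Finsupp.support_single_subset hz)], fun _ => trivial⟩).mono
    (by have := (hd w hw).1; omega) fun _ _ hz => hz

theorem single_coeff_ne {f : AddMonoid.End (Word T →₀ D)} (hf : f ∈ C.ring) {d : ℕ}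
    (hd : Bd d (fun _ => True) (f (Finsupp.single Word.nil 1))) {v u : Word T}
    (hl : d + v.1.length ≤ u.1.length) (h : f (Finsupp.single v 1) u ≠ 0) :
    ∃ w ∈ (f (Finsupp.single Word.nil 1)).support, u.1 = w.1 ++ v.1 := by
  rw [C.eq_op hf, C.op_apply, Finsupp.finsetSum_apply] at h
  obtain ⟨w, hw, h⟩ := Finset.exists_ne_zero_of_sum_ne_zero h
  rw [scal_apply] at h
  exact ⟨w, hw, C.opW_single_top w v u (by have := (hd w hw).1; omega) (right_ne_zero_of_mul h)⟩

theorem single_coeff {f : AddMonoid.End (Word T →₀ D)} (hf : f ∈ C.ring) {d : ℕ}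
    (hd : Bd d (fun _ => True) (f (Finsupp.single Word.nil 1))) (v w : Word T)
    (hc : List.IsChain (fun a b : Σ i, T i => a.1 ≠ b.1) (w.1 ++ v.1)) (hw : d ≤ w.1.length) :
    f (Finsupp.single v 1) ⟨w.1 ++ v.1, hc⟩ = f (Finsupp.single Word.nil 1) w := by
  classical
  conv_lhs => rw [C.eq_op hf, C.op_apply, Finsupp.finsetSum_apply]
  rw [Finset.sum_eq_single w]
  · rw [scal_apply, C.opW_single _ _ hc, Finsupp.single_eq_same, mul_one]
  · intro w' hw' hne
    rw [scal_apply]
    by_contra h
    have h' := C.opW_single_top w' v _ (by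
      have := (hd w' hw').1
      simp only [List.length_append]
      omega) (right_ne_zero_of_mul h)
    exact hne (Subtype.ext (List.append_cancel_right h').symm)
  · intro h
    rw [Finsupp.notMem_support_iff.1 h, scal_apply, zero_mul]

theorem single_shift {f : AddMonoid.End (Word T →₀ D)} (hf : f ∈ C.ring) {d : ℕ}
    (hd : Bd d (fun _ => True) (f (Finsupp.single Word.nil 1))) {q v v₀ w u : Word T}
    (hv : v.1 = q.1 ++ v₀.1) (hu : u.1 = w.1 ++ v₀.1) (hw : d + q.1.length ≤ w.1.length) :
    f (Finsupp.single v 1) u = f (Finsupp.single q 1) w := by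
  by_cases h : ∃ p : Word T, w.1 = p.1 ++ q.1
  · obtain ⟨p, hp⟩ := h
    have h1 : u.1 = p.1 ++ v.1 := by rw [hu, hv, hp, List.append_assoc]
    have hlen := congrArg List.length hp
    simp only [List.length_append] at hlen
    have e1 : u = ⟨p.1 ++ v.1, h1 ▸ u.2⟩ := Subtype.ext h1
    have e2 : w = ⟨p.1 ++ q.1, hp ▸ w.2⟩ := Subtype.ext hp
    rw [e1, C.single_coeff hf hd _ _ _ (by omega), e2, C.single_coeff hf hd _ _ _ (by omega)]
  · have hR : f (Finsupp.single q 1) w = 0 := by
      by_contra hne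
      obtain ⟨p, -, hp⟩ := C.single_coeff_ne hf hd hw hne
      exact h ⟨p, hp⟩
    rw [hR]
    by_contra hne
    obtain ⟨p, -, hp⟩ := C.single_coeff_ne hf hd (by
      simp only [hu, hv, List.length_append]; omega) hne
    rw [hu, hv, ← List.append_assoc] at hp
    exact h ⟨p, List.append_cancel_right hp⟩

theorem exists_terms {α : C.ring} {d : ℕ} {p : Option ι}
    (hα : Typ d p (α.1 (Finsupp.single Word.nil 1))) (β : C.ring) :
    ∃ (S : Finset (Word T)) (γ : Word T → C.ring),
      β = ∑ v ∈ S, γ v * C.wordElt v ∧ (β = 0 → S = ∅) ∧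
      ∀ v ∈ S, IsUnit (γ v) ∧ Bd d (EndType p) ((α * γ v).1 (Finsupp.single Word.nil 1)) ∧
        StartFree p v := by
  classical
  set y := β.1 (Finsupp.single Word.nil 1) with hy
  have hy0 : β = 0 → y = 0 := fun h => by rw [hy, h]; rfl
  cases p with
  | none =>
    refine ⟨y.support, fun v => C.scalElt (y v), Subtype.ext ?_, fun h => by simp [hy0 h],
      fun v hv => ⟨(isUnit_iff_ne_zero.2 (Finsupp.mem_support_iff.1 hv)).map C.scalElt, ?_,
        fun i h => absurd h (by simp)⟩⟩
    · rw [C.eq_op β.2, C.op_eq_sum, AddSubmonoidClass.coe_finsetSum]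
      rfl
    · have h := C.bd_right_scalar α.2 (n := d) (hα.1.mono le_rfl fun _ _ _ => trivial) (y v)
      show Bd d (EndType none) (α.1 (Coords.scal (y v) (Finsupp.single Word.nil 1)))
      rw [scal_single, mul_one]
      exact h.mono le_rfl fun w _ _ i hi => absurd hi (by simp)
  | some i =>
    let a : Word T → E i := fun q => ∑ v ∈ y.support.filter (fun v => (split i v).2 = q),
      j i (y v) * C.b i (split i v).1
    refine ⟨y.support.image fun v => (split i v).2, fun q => C.sideElt i (a q), Subtype.ext ?_,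
      fun h => by simp [hy0 h], fun q hq => ⟨?_, ?_, ?_⟩⟩
    · rw [AddSubmonoidClass.coe_finsetSum]
      conv_lhs => rw [C.eq_op β.2, C.op_eq_sum, ← Finset.sum_fiberwise_of_maps_to
        (g := fun v => (split i v).2) (fun v hv => Finset.mem_image_of_mem (fun v => (split i v).2) hv)]
      refine Finset.sum_congr rfl fun q _ => ?_
      show _ = C.L i (a q) * C.opW q.1
      simp only [a, map_sum, Finset.sum_mul]
      refine Finset.sum_congr rfl fun v hv => ?_
      rw [map_mul, C.L_j, mul_assoc]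
      congr 1
      conv_lhs => rw [C.opW_split i v, (Finset.mem_filter.1 hv).2]
    · refine (isUnit_iff_ne_zero.2 ?_).map (C.sideElt i)
      obtain ⟨v₀, hv₀, rfl⟩ := Finset.mem_image.1 hq
      intro h0
      have h := congrArg (fun z => C.r i z (split i v₀).1) h0
      simp only [a, map_sum, C.r_single, Finsupp.finsetSum_apply, map_zero, Finsupp.zero_apply] at h
      rw [Finset.sum_eq_single v₀] at h
      · rw [Finsupp.single_eq_same] at h
        exact Finsupp.mem_support_iff.1 hv₀ h
      · intro v hv hne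
        refine Finsupp.single_eq_of_ne fun e => hne ?_
        rw [← cons_split i v, ← cons_split i v₀, (Finset.mem_filter.1 hv).2, e]
      · exact fun h' => h'.elim (Finset.mem_filter.2 ⟨hv₀, rfl⟩)
    · have h : Bd d (EndsIn i) (α.1 (C.L i (a q) (Finsupp.single Word.nil 1))) :=
        C.bd_right_L α.2 (hα.1.mono le_rfl fun w _ hw => hw i rfl) _
      refine h.mono le_rfl fun w _ hw k hk => ?_
      obtain rfl := Option.some.inj hk
      exact hw
    · obtain ⟨v₀, _, rfl⟩ := Finset.mem_image.1 hq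
      intro k hk
      obtain rfl := Option.some.inj hk
      exact split_notStart _ v₀

/-- One step of the weak algorithm: some combination has smaller refined degree. -/
theorem exists_step {κ : Type*} [Fintype κ] (α β : κ → C.ring) (d : κ → ℕ) (p : κ → Option ι)
    (hT : ∀ k, Typ (d k) (p k) ((α k).1 (Finsupp.single Word.nil 1))) (hβ : β ≠ 0)
    (hsum : ∑ k, α k * β k = 0) :
    ∃ (k₀ : κ) (Γ : κ → C.ring), β k₀ ≠ 0 ∧ IsUnit (Γ k₀) ∧ (∀ k, β k = 0 → Γ k = 0) ∧
      (∑ k, α k * Γ k = 0 ∨ ∃ d' p', Typ d' p' ((∑ k, α k * Γ k).1 (Finsupp.single Word.nil 1)) ∧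
        rk d' p' < rk (d k₀) (p k₀)) := by
  classical
  choose S γ hβS hS0 hS using fun k => C.exists_terms (hT k) (β k)
  let P : Finset (Σ _ : κ, Word T) := Finset.univ.sigma S
  have hP : P.Nonempty := by
    obtain ⟨k, hk⟩ := Function.ne_iff.1 hβ
    have : (S k).Nonempty := Finset.nonempty_iff_ne_empty.2 fun h => hk (by
      rw [hβS k, h, Finset.sum_empty]; rfl)
    obtain ⟨v, hv⟩ := this
    exact ⟨⟨k, v⟩, Finset.mem_sigma.2 ⟨Finset.mem_univ _, hv⟩⟩
  obtain ⟨t₁, ht₁, hN'⟩ := P.exists_max_image (fun t => d t.1 + t.2.1.length) hP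
  set N := d t₁.1 + t₁.2.1.length with hNdef
  let Q := P.filter fun t => d t.1 + t.2.1.length = N
  obtain ⟨t₂, ht₂, hd'⟩ := Q.exists_max_image (fun t => d t.1) ⟨t₁, Finset.mem_filter.2 ⟨ht₁, rfl⟩⟩
  obtain ⟨t₀, ht₀, htd, hpref⟩ : ∃ t₀ ∈ Q, d t₀.1 = d t₂.1 ∧
      (p t₀.1 = none ∨ ∀ t ∈ Q, d t.1 = d t₂.1 → p t.1 ≠ none) := by
    by_cases h : ∃ t ∈ Q, d t.1 = d t₂.1 ∧ p t.1 = none
    · obtain ⟨t, ht, h1, h2⟩ := h
      exact ⟨t, ht, h1, Or.inl h2⟩
    · exact ⟨t₂, ht₂, rfl, Or.inr fun t ht h1 h2 => h ⟨t, ht, h1, h2⟩⟩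
  obtain ⟨k₀, v₀⟩ := t₀
  simp only at htd hpref
  obtain ⟨ht₀P, ht₀N⟩ := Finset.mem_filter.1 ht₀
  have hv₀ : v₀ ∈ S k₀ := (Finset.mem_sigma.1 ht₀P).2
  simp only at ht₀N
  have hN : ∀ k, ∀ v ∈ S k, d k + v.1.length ≤ N := fun k v hv =>
    hN' ⟨k, v⟩ (Finset.mem_sigma.2 ⟨Finset.mem_univ _, hv⟩)
  have htop : ∀ k, ∀ v ∈ S k, d k + v.1.length = N → d k ≤ d k₀ ∧ (⟨k, v⟩ : Σ _ : κ, Word T) ∈ Q :=
    fun k v hv h => by
    have hm : (⟨k, v⟩ : Σ _ : κ, Word T) ∈ Q :=
      Finset.mem_filter.2 ⟨Finset.mem_sigma.2 ⟨Finset.mem_univ _, hv⟩, h⟩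
    exact ⟨htd ▸ hd' _ hm, hm⟩
  set m := v₀.1.length with hm
  let pre : Word T → Word T := fun v => ⟨v.1.take (v.1.length - m), v.2.take _⟩
  have hpre : ∀ v : Word T, v₀.1 <:+ v.1 → v.1 = (pre v).1 ++ v₀.1 := by
    rintro v ⟨q, hq⟩
    simp [pre, ← hq, hm]
  let F : κ → Finset (Word T) := fun k => (S k).filter fun v => v₀.1 <:+ v.1
  let Γ : κ → C.ring := fun k => ∑ v ∈ F k, γ k v * C.wordElt (pre v)
  have hprelen : ∀ k, ∀ v ∈ F k, d k + (pre v).1.length ≤ d k₀ ∧
      (d k + (pre v).1.length = d k₀ → d k + v.1.length = N) := by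
    intro k v hv
    obtain ⟨hvS, hvs⟩ := Finset.mem_filter.1 hv
    have h1 := congrArg List.length (hpre v hvs)
    simp only [List.length_append] at h1
    have h2 := hN k v hvS
    omega
  have hF₀ : F k₀ = {v₀} := by
    refine Finset.eq_singleton_iff_unique_mem.2 ⟨Finset.mem_filter.2 ⟨hv₀, List.suffix_rfl⟩,
      fun v hv => ?_⟩
    obtain ⟨hvS, hvs⟩ := Finset.mem_filter.1 hv
    have h := hN k₀ v hvS
    exact Subtype.ext (hvs.eq_of_length_le (by omega)).symm
  have hunit : IsUnit (Γ k₀) := by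
    have h1 : C.wordElt (pre v₀) = 1 := Subtype.ext (by simp [wordElt, pre, hm, opW])
    simp only [Γ, hF₀, Finset.sum_singleton, h1, mul_one]
    exact (hS k₀ v₀ hv₀).1
  have hne : β k₀ ≠ 0 := fun h => by simp [hS0 k₀ h] at hv₀
  have hΓ0 : ∀ k, β k = 0 → Γ k = 0 := fun k h => by simp [Γ, F, hS0 k h]
  refine ⟨k₀, Γ, hne, hunit, hΓ0, ?_⟩
  set A := ∑ k, α k * Γ k with hA
  let f : κ → Word T → AddMonoid.End (Word T →₀ D) := fun k v => (α k * γ k v).1
  have hfm : ∀ k v, f k v ∈ C.ring := fun k v => (α k * γ k v).2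
  have hfb : ∀ k, ∀ v ∈ S k, Bd (d k) (fun _ => True) (f k v (Finsupp.single Word.nil 1)) :=
    fun k v hv => (hS k v hv).2.1.mono le_rfl fun _ _ _ => trivial
  have hAe : A.1 (Finsupp.single Word.nil 1)
      = ∑ k, ∑ v ∈ F k, f k v (Finsupp.single (pre v) 1) := by
    simp only [hA, Γ, f, Finset.mul_sum, ← mul_assoc, AddSubmonoidClass.coe_finsetSum, sum_apply_end]
    refine Finset.sum_congr rfl fun k _ => Finset.sum_congr rfl fun v _ => ?_
    rw [Subring.coe_mul, end_mul]
    show (α k * γ k v).1 (C.opW (pre v).1 (Finsupp.single Word.nil 1)) = _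
    rw [C.opW_nil]
  have hAb : Bd (d k₀) (fun _ => True) (A.1 (Finsupp.single Word.nil 1)) := by
    rw [hAe]
    refine bd_sum _ _ fun k _ => bd_sum _ _ fun v hv => ?_
    exact (C.bd_single (hfm k v) (hfb k v (Finset.mem_filter.1 hv).1) _).mono (hprelen k v hv).1
      fun _ _ h => h
  have hzero : ∀ w : Word T, w.1.length = d k₀ →
      List.IsChain (fun a b : Σ i, T i => a.1 ≠ b.1) (w.1 ++ v₀.1) →
      A.1 (Finsupp.single Word.nil 1) w = 0 := by
    intro w hw hc
    set u : Word T := ⟨w.1 ++ v₀.1, hc⟩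
    have hu : u.1.length = N := by simp [u, hw, ← hm]; omega
    have hall : ∑ k, ∑ v ∈ S k, f k v (Finsupp.single v 1) u = 0 := by
      have h := congrArg (fun z : C.ring => z.1 (Finsupp.single Word.nil 1) u) hsum
      simp only [AddSubmonoidClass.coe_finsetSum, sum_apply_end, Finsupp.finsetSum_apply,
        ZeroMemClass.coe_zero] at h
      refine (Finset.sum_congr rfl fun k _ => ?_).trans h
      conv_rhs => rw [hβS k, Finset.mul_sum]
      simp only [← mul_assoc, AddSubmonoidClass.coe_finsetSum, sum_apply_end, Finsupp.finsetSum_apply]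
      refine Finset.sum_congr rfl fun v _ => ?_
      rw [Subring.coe_mul, end_mul]
      show _ = f k v (C.opW v.1 (Finsupp.single Word.nil 1)) u
      rw [C.opW_nil]
    rw [hAe, Finsupp.finsetSum_apply, ← hall]
    refine Finset.sum_congr rfl fun k _ => ?_
    rw [Finsupp.finsetSum_apply]
    refine Finset.sum_congr_of_eq_on_inter ?_ ?_ ?_
    · intro v hv hv'
      exact absurd (Finset.mem_filter.1 hv).1 hv'
    · intro v hv hv'
      by_contra h
      have h1 := hN k v hv
      obtain ⟨w', hw', he⟩ := C.single_coeff_ne (hfm k v) (hfb k v hv) (by omega) h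
      have h2 := congrArg List.length he
      simp only [List.length_append] at h2
      have h3 := (hfb k v hv w' hw').1
      have h4 := (htop k v hv (by omega)).1
      exact hv' (Finset.mem_filter.2 ⟨hv, List.suffix_of_suffix_length_le (l₃ := u.1)
        (List.suffix_append _ _) ⟨w'.1, he.symm⟩ (by omega)⟩)
    · intro v hv hvS
      obtain ⟨h1, h2⟩ := hprelen k v hv
      exact (C.single_shift (hfm k v) (hfb k v hvS) (hpre v (Finset.mem_filter.1 hv).2) rfl
        (by omega)).symm
  by_cases htop' : ∃ w ∈ (A.1 (Finsupp.single Word.nil 1)).support, w.1.length = d k₀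
  · obtain ⟨w, hw, hwl⟩ := htop'
    have hjoin : ∀ z ∈ (A.1 (Finsupp.single Word.nil 1)).support, z.1.length = d k₀ →
        ∃ b ∈ v₀.1.head?, EndsIn b.1 z := by
      intro z hz hzl
      by_contra h
      refine Finsupp.mem_support_iff.1 hz (hzero z hzl (List.isChain_append.2
        ⟨z.2, v₀.2, fun a ha b hb e => h ⟨b, hb, a, ha, e⟩⟩))
    obtain ⟨b, hb, hwb⟩ := hjoin w hw hwl
    have hd1 : 1 ≤ d k₀ := by
      obtain ⟨s, hs, _⟩ := hwb
      rw [← hwl]
      cases hl : w.1 with
      | nil => simp [hl] at hs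
      | cons a l => simp
    rcases hpref with hpn | hall
    · refine Or.inr ⟨d k₀, some b.1, ⟨fun z hz => ⟨(hAb z hz).1, fun hzl i hi => ?_⟩,
        fun _ => hd1⟩, ?_⟩
      · obtain rfl := Option.some.inj hi
        obtain ⟨b', hb', hzb⟩ := hjoin z hz hzl
        rw [Option.mem_def] at hb hb'
        rw [hb, Option.some.injEq] at hb'
        exact hb' ▸ hzb
      · simp only [hpn, rk]
        omega
    · exfalso
      rw [Finsupp.mem_support_iff, hAe, Finsupp.finsetSum_apply] at hw
      obtain ⟨k, -, hk⟩ := Finset.exists_ne_zero_of_sum_ne_zero hw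
      rw [Finsupp.finsetSum_apply] at hk
      obtain ⟨v, hv, hkv⟩ := Finset.exists_ne_zero_of_sum_ne_zero hk
      obtain ⟨hvS, hvs⟩ := Finset.mem_filter.1 hv
      obtain ⟨h1, h2⟩ := hprelen k v hv
      obtain ⟨w', hw', he⟩ := C.single_coeff_ne (hfm k v) (hfb k v hvS) (by omega) hkv
      have hlen := congrArg List.length he
      simp only [List.length_append] at hlen
      have hw'l := (hfb k v hvS w' hw').1
      obtain ⟨s, hs, hsb⟩ := hwb
      rw [Option.mem_def] at hs
      by_cases hnil : (pre v).1 = []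
      · rw [hnil, List.append_nil] at he
        have hvv : v = v₀ := Subtype.ext (by rw [hpre v hvs, hnil, List.nil_append])
        subst hvv
        rw [hnil, List.length_nil] at h2 hlen
        have hmem := (htop k v hvS (h2 (by omega))).2
        obtain ⟨i, hi⟩ := Option.ne_none_iff_exists'.1 (hall _ hmem (by show d k = _; omega))
        obtain ⟨s', hs', hs'i⟩ := ((hS k v hvS).2.1 w' hw').2 (by omega) i hi
        rw [← he, Option.mem_def, hs, Option.some.injEq] at hs'
        refine (hS k v hvS).2.2 i hi b hb ?_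
        rw [← hsb, hs', hs'i]
      · have hchain : List.IsChain (fun a b : Σ i, T i => a.1 ≠ b.1) ((pre v).1 ++ v₀.1) := by
          rw [← hpre v hvs]; exact v.2
        refine (List.isChain_append.1 hchain).2.2 s ?_ b hb hsb
        rw [he, List.getLast?_append_of_ne_nil _ hnil] at hs
        exact hs
  · rcases Nat.eq_zero_or_pos (d k₀) with h0 | h0
    · refine Or.inl (Subtype.ext ?_)
      have hz : A.1 (Finsupp.single Word.nil 1) = 0 := by
        rw [← Finsupp.support_eq_empty]
        refine Finset.eq_empty_iff_forall_notMem.2 fun z hz => htop' ⟨z, hz, ?_⟩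
        have := (hAb z hz).1
        omega
      rw [C.eq_op A.2, hz, map_zero]
      rfl
    · refine Or.inr ⟨d k₀ - 1, none, ⟨fun z hz => ⟨?_, fun _ i hi => absurd hi (by simp)⟩,
        fun h => absurd rfl h⟩, ?_⟩
      · have := (hAb z hz).1
        by_contra h
        exact htop' ⟨z, hz, by omega⟩
      · cases p k₀ <;> simp only [rk] <;> omega

end Coords

end Vale.Agent.P201
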