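import Vale.Agent.P201.Coproduct

/-!
The ring generated by the actions has no zero divisors.
-/

namespace Vale.Agent.P201

set_option linter.unusedSectionVars false

variable {ι : Type*} {D : Type*} [DivisionRing D] {E : ι → Type*} [∀ i, DivisionRing (E i)]
variable {T : ι → Type*} {j : ∀ i, D →+* E i} (C : Coords j T)

namespace Coords

theorem Bd.mono {m n : ℕ} {Q R : Word T → Prop} {x : Word T →₀ D} (hx : Bd m Q x) (h : m ≤ n)
    (hQR : ∀ w ∈ x.support, Q w → R w) : Bd n R x := fun w hw =>
  ⟨le_trans (hx w hw).1 h, fun he => hQR w hw ((hx w hw).2 (by have := (hx w hw).1; omega))⟩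

theorem sum_apply_end {κ : Type*} (s : Finset κ) (f : κ → AddMonoid.End (Word T →₀ D))
    (x : Word T →₀ D) : (∑ k ∈ s, f k) x = ∑ k ∈ s, f k x :=
  AddMonoidHom.finsetSum_apply f s x

theorem op_apply (x y : Word T →₀ D) :
    C.op x y = ∑ w ∈ x.support, scal (x w) (C.opW w.1 y) := by
  rw [C.op_eq_sum, sum_apply_end]
  rfl

theorem scal_apply (c : D) (z : Word T →₀ D) (u : Word T) : (scal c z) u = c * z u := by
  show (scalFun c z) u = _
  simp [scalFun]

/-- Only concatenation reaches the largest length. -/
theorem opW_single_top (w v u : Word T) (hlen : w.1.length + v.1.length ≤ u.1.length)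
    (h : C.opW w.1 (Finsupp.single v 1) u ≠ 0) : u.1 = w.1 ++ v.1 := by
  classical
  by_cases hc : List.IsChain (fun a b : Σ i, T i => a.1 ≠ b.1) (w.1 ++ v.1)
  · rw [C.opW_single _ _ hc, Finsupp.single_apply] at h
    by_cases e : (⟨w.1 ++ v.1, hc⟩ : Word T) = u
    · rw [← e]
    · rw [if_neg e] at h; exact absurd rfl h
  · exfalso
    rcases List.eq_nil_or_concat w.1 with hnil | ⟨p, s, hps⟩
    · rw [hnil] at hc
      exact hc v.2
    rw [List.concat_eq_append] at hps
    have hv : StartsIn s.1 v := by
      by_contra hv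
      refine hc (List.isChain_append.2 ⟨w.2, v.2, fun x hx y hy e => hv ⟨y, hy, ?_⟩⟩)
      have : x = s := by simpa [hps, eq_comm] using hx
      rw [← e, this]
    have hb : Bd v.1.length (StartsIn s.1) (Finsupp.single v (1 : D)) := fun z hz => by
      rw [Finset.mem_singleton.1 (Finsupp.support_single_subset hz)]
      exact ⟨le_rfl, fun _ => hv⟩
    rw [hps, C.opW_append, end_mul,
      show C.opW [s] = C.L s.1 (C.b s.1 (some s.2)) by simp [opW]] at h
    have := C.bd_opW p _ _ (C.bd_L_starts s.1 (C.b s.1 (some s.2)) hb) u (Finsupp.mem_support_iff.2 h)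
    have hl := congrArg List.length hps
    simp only [List.length_append, List.length_singleton] at hl
    omega

theorem single_nil_eq (i : ι) (c : D) :
    (Finsupp.single Word.nil c : Word T →₀ D) = C.L i (j i c) (Finsupp.single Word.nil 1) := by
  rw [C.L_j, scal_single, mul_one]

theorem bd_right_L {α : AddMonoid.End (Word T →₀ D)} (hα : α ∈ C.ring) {n : ℕ} {i : ι}
    (hx : Bd n (EndsIn i) (α (Finsupp.single Word.nil 1))) (a : E i) :
    Bd n (EndsIn i) (α (C.L i a (Finsupp.single Word.nil 1))) := by
  have h := C.eq_op hα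
  rw [h, C.op_apply]
  refine bd_sum _ _ fun w hw => Bd.scal ?_ _
  obtain ⟨h1, h2⟩ := hx w hw
  rcases Nat.lt_or_ge w.1.length n with h3 | h3
  · exact ((C.bd_opW_L w i a).1).mono h3 fun _ _ hz => hz
  · exact ((C.bd_opW_L w i a).2 (h2 (by omega))).mono h1 fun _ _ hz => hz

theorem bd_right_scalar {α : AddMonoid.End (Word T →₀ D)} (hα : α ∈ C.ring) {n : ℕ}
    (hx : Bd n (fun _ => True) (α (Finsupp.single Word.nil 1))) (c : D) :
    Bd n (fun _ => True) (α (Finsupp.single Word.nil c)) := by
  have h := C.eq_op hα
  rw [h, C.op_apply]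
  refine bd_sum _ _ fun w hw => Bd.scal ?_ _
  exact (C.bd_opW w.1 0 _ fun z hz => ⟨by
    rw [Finset.mem_singleton.1 (Finsupp.support_single_subset hz)]; simp [Word.nil], fun _ => trivial⟩).mono
    (by have := (hx w hw).1; omega) fun _ _ hz => hz

/-- The coefficient of a product at a concatenation of two longest words. -/
theorem top_coeff {κ : Type*} [DecidableEq κ] (s : Finset κ) (f : κ → AddMonoid.End (Word T →₀ D))
    (v : κ → Word T) (hv : Set.InjOn v s) (hf : ∀ k ∈ s, f k ∈ C.ring) {n m : ℕ}
    (hn : ∀ k ∈ s, Bd n (fun _ => True) (f k (Finsupp.single Word.nil 1)))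
    (hm : ∀ k ∈ s, (v k).1.length ≤ m) {k₀ : κ} (hk₀ : k₀ ∈ s) (hvk : (v k₀).1.length = m)
    (w : Word T) (hw : w.1.length = n)
    (hc : List.IsChain (fun a b : Σ i, T i => a.1 ≠ b.1) (w.1 ++ (v k₀).1)) :
    (∑ k ∈ s, f k (Finsupp.single (v k) 1)) ⟨w.1 ++ (v k₀).1, hc⟩
      = f k₀ (Finsupp.single Word.nil 1) w := by
  classical
  rw [Finsupp.finsetSum_apply, Finset.sum_eq_single k₀]
  · conv_lhs => rw [C.eq_op (hf k₀ hk₀), C.op_apply, Finsupp.finsetSum_apply]
    rw [Finset.sum_eq_single w]
    · rw [scal_apply, C.opW_single _ _ hc, Finsupp.single_eq_same, mul_one]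
    · intro w' hw' hne
      rw [scal_apply]
      by_contra h
      have h' := C.opW_single_top w' (v k₀) _ (by
        have := (hn k₀ hk₀ w' hw').1
        simp only [List.length_append]
        omega) (right_ne_zero_of_mul h)
      exact hne (Subtype.ext (List.append_cancel_right h').symm)
    · intro h
      rw [Finsupp.notMem_support_iff.1 h, scal_apply, zero_mul]
  · intro k hk hne
    conv_lhs => rw [C.eq_op (hf k hk), C.op_apply, Finsupp.finsetSum_apply]
    refine Finset.sum_eq_zero fun w' hw' => ?_
    rw [scal_apply]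
    by_contra h
    have h1 := (hn k hk w' hw').1
    have h2 := hm k hk
    have h' := C.opW_single_top w' (v k) _ (by simp only [List.length_append]; omega)
      (right_ne_zero_of_mul h)
    have hl := congrArg List.length h'
    simp only [List.length_append] at hl
    have := (List.append_inj h' (by omega)).2
    exact hne (hv hk hk₀ (Subtype.ext this.symm))
  · exact fun h => absurd hk₀ h

theorem exists_top {n : ℕ} {x : Word T →₀ D} (hx : Bd (n + 1) (fun _ => True) x)
    (h : ¬ ∃ w ∈ x.support, w.1.length = n + 1) : Bd n (fun _ => True) x := by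
  intro w hw
  refine ⟨?_, fun _ => trivial⟩
  have := (hx w hw).1
  by_contra h'
  exact h ⟨w, hw, by omega⟩

theorem split_length {i : ι} {v : Word T} (hv : StartsIn i v) :
    (split i v).2.1.length + 1 = v.1.length := by
  obtain ⟨t, ht, hti⟩ := hv
  rcases cons_cases (split i v).1 (split_notStart i v) with ⟨_, h⟩ | ⟨t', _, h⟩
  · rw [cons_split] at h
    have h' := split_notStart i v
    rw [← h] at h'
    exact absurd hti (h' t ht)
  · rw [cons_split] at h
    rw [h]; simp

theorem eq_zero_or_eq_zero_aux : ∀ (N n m : ℕ), n + m = N →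
    ∀ α ∈ C.ring, ∀ β ∈ C.ring, α * β = 0 →
      Bd n (fun _ => True) (α (Finsupp.single Word.nil 1)) →
      Bd m (fun _ => True) (β (Finsupp.single Word.nil 1)) → α = 0 ∨ β = 0 := by
  classical
  intro N
  induction N using Nat.strong_induction_on with
  | _ N ih =>
    intro n m hN α hα β hβ hαβ hx hy
    generalize hxdef : α (Finsupp.single Word.nil 1) = x at hx
    generalize hydef : β (Finsupp.single Word.nil 1) = y at hy
    have hα' : α = C.op x := hxdef ▸ C.eq_op hα
    have hβ' : β = C.op y := hydef ▸ C.eq_op hβ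
    by_cases hx0 : x = 0
    · exact Or.inl (by rw [hα', hx0, map_zero])
    by_cases hy0 : y = 0
    · exact Or.inr (by rw [hβ', hy0, map_zero])
    cases n with
    | zero =>
      have : x = Finsupp.single Word.nil (x Word.nil) := by
        ext w
        by_cases hw : w ∈ x.support
        · have := List.length_eq_zero_iff.1 (Nat.le_zero.1 (hx w hw).1)
          rw [show w = Word.nil from Subtype.ext this, Finsupp.single_eq_same]
        · rw [Finsupp.notMem_support_iff.1 hw, Finsupp.single_apply]
          split_ifs with h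
          · rw [h, Finsupp.notMem_support_iff.1 hw]
          · rfl
      set c := x Word.nil
      have hc : c ≠ 0 := fun h => hx0 (by rw [this, h, Finsupp.single_zero])
      rw [hα', this, C.op_single, show C.opW (Word.nil : Word T).1 = 1 from rfl, mul_one] at hαβ
      refine Or.inr ?_
      calc β = scal c⁻¹ * (scal c * β) := by rw [← mul_assoc, ← map_mul, inv_mul_cancel₀ hc, map_one, one_mul]
        _ = 0 := by rw [hαβ, mul_zero]
    | succ n =>
    cases m with
    | zero =>
      have : y = Finsupp.single Word.nil (y Word.nil) := by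
        ext w
        by_cases hw : w ∈ y.support
        · have := List.length_eq_zero_iff.1 (Nat.le_zero.1 (hy w hw).1)
          rw [show w = Word.nil from Subtype.ext this, Finsupp.single_eq_same]
        · rw [Finsupp.notMem_support_iff.1 hw, Finsupp.single_apply]
          split_ifs with h
          · rw [h, Finsupp.notMem_support_iff.1 hw]
          · rfl
      set c := y Word.nil
      have hc : c ≠ 0 := fun h => hy0 (by rw [this, h, Finsupp.single_zero])
      rw [hβ', this, C.op_single, show C.opW (Word.nil : Word T).1 = 1 from rfl, mul_one] at hαβ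
      refine Or.inl ?_
      calc α = α * scal c * scal c⁻¹ := by rw [mul_assoc, ← map_mul, mul_inv_cancel₀ hc, map_one, mul_one]
        _ = 0 := by rw [hαβ, zero_mul]
    | succ m =>
    by_cases htx : ¬ ∃ w ∈ x.support, w.1.length = n + 1
    · exact ih (n + (m + 1)) (by omega) n (m + 1) rfl α hα β hβ hαβ (hxdef ▸ exists_top hx htx)
        (hydef ▸ hy)
    by_cases hty : ¬ ∃ w ∈ y.support, w.1.length = m + 1
    · exact ih (n + 1 + m) (by omega) (n + 1) m rfl α hα β hβ hαβ (hxdef ▸ hx)
        (hydef ▸ exists_top hy hty)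
    push Not at htx hty
    obtain ⟨v₀, hv₀, hv₀l⟩ := hty
    obtain ⟨⟨i, t⟩, r, hv₀e⟩ := List.exists_cons_of_length_eq_add_one hv₀l
    have hv₀i : StartsIn i v₀ := ⟨⟨i, t⟩, by simp [hv₀e], rfl⟩
    have hzero : α y = 0 := by
      rw [← hydef, ← end_mul, hαβ]
      rfl
    -- a longest word of each factor with different sides at the junction is impossible
    have hmix : ∀ (v w : Word T), v ∈ y.support → v.1.length = m + 1 →
        w ∈ (α (Finsupp.single Word.nil (y v))).support → w.1.length = n + 1 →
        List.IsChain (fun a b : Σ i, T i => a.1 ≠ b.1) (w.1 ++ v.1) → False := by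
      intro v w hv hvl hw hwl hc
      have hsum : α y = ∑ v ∈ y.support, (α * (scal (y v) : AddMonoid.End (Word T →₀ D))) (Finsupp.single v 1) := by
        conv_lhs => rw [← y.sum_single]
        rw [Finsupp.sum, map_sum]
        refine Finset.sum_congr rfl fun v _ => ?_
        rw [end_mul, scal_single, mul_one]
      have := C.top_coeff y.support (fun v => α * scal (y v)) id (fun a _ b _ e => e)
        (fun v _ => mul_mem hα (C.scal_mem _)) (n := n + 1) (m := m + 1)
        (fun v _ => by
          rw [end_mul, scal_single, mul_one]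
          exact C.bd_right_scalar hα (hxdef ▸ hx) _)
        (fun v hv => (hy v hv).1) hv hvl w hwl hc
      simp only [id] at this
      rw [← hsum, hzero, Finsupp.zero_apply, end_mul, scal_single, mul_one] at this
      exact Finsupp.mem_support_iff.1 hw this.symm
    have hends : ∀ c : D, c ≠ 0 → Bd (n + 1) (EndsIn i) (α (Finsupp.single Word.nil c)) →
        Bd (n + 1) (EndsIn i) x := by
      intro c hc h
      have h' := C.bd_right_L (α := α * scal c) (mul_mem hα (C.scal_mem _)) (n := n + 1) (i := i)
        (by rwa [end_mul, scal_single, mul_one]) (j i c⁻¹)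
      rwa [C.L_j, end_mul, scal_single, mul_one, scal_single, mul_inv_cancel₀ hc, hxdef] at h'
    have hxi : Bd (n + 1) (EndsIn i) x := by
      refine hends (y v₀) (Finsupp.mem_support_iff.1 hv₀) fun w hw => ?_
      refine ⟨(C.bd_right_scalar hα (hxdef ▸ hx) _ w hw).1, fun hwl => ?_⟩
      by_contra hne
      refine hmix v₀ w hv₀ hv₀l hw hwl
        (List.isChain_append.2 ⟨w.2, v₀.2, fun a ha b hb e => hne ⟨a, ha, ?_⟩⟩)
      rw [hv₀e, List.head?_cons, Option.mem_def, Option.some.injEq] at hb
      rw [e, ← hb]
    have hyi : Bd (m + 1) (StartsIn i) y := fun v hv => by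
      refine ⟨(hy v hv).1, fun hvl => ?_⟩
      by_contra hne
      have hb : Bd (n + 1) (EndsIn i) (α (Finsupp.single Word.nil (y v))) := by
        rw [C.single_nil_eq i]
        exact C.bd_right_L hα (hxdef ▸ hxi) _
      by_cases htop : ∃ w ∈ (α (Finsupp.single Word.nil (y v))).support, w.1.length = n + 1
      · obtain ⟨w, hw, hwl⟩ := htop
        obtain ⟨s, hs, hsi⟩ := (hb w hw).2 hwl
        refine hmix v w hv hvl hw hwl
          (List.isChain_append.2 ⟨w.2, v.2, fun a ha b hb e => hne ⟨b, hb, ?_⟩⟩)
        rw [Option.mem_def] at ha hs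
        rw [ha, Option.some.injEq] at hs
        rw [← e, hs, hsi]
      · have h1 := exists_top (hb.mono le_rfl fun _ _ _ => trivial) htop
        have h2 := C.bd_right_scalar (α := α * scal (y v)) (mul_mem hα (C.scal_mem _))
          (by rwa [end_mul, scal_single, mul_one]) (y v)⁻¹
        rw [end_mul, scal_single, mul_inv_cancel₀ (Finsupp.mem_support_iff.1 hv), hxdef] at h2
        obtain ⟨w, hw, hwl⟩ := htx
        have := (h2 w hw).1
        omega
    -- the descent
    set s : Finset (Word T) := y.support.image fun v => (split i v).2 with hs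
    let a : Word T → E i := fun q => ∑ v ∈ y.support.filter (fun v => (split i v).2 = q),
      j i (y v) * C.b i (split i v).1
    have hβsum : β = ∑ q ∈ s, C.L i (a q) * C.opW q.1 := by
      rw [hβ', C.op_eq_sum, ← Finset.sum_fiberwise_of_maps_to (g := fun v => (split i v).2)
        (fun v hv => Finset.mem_image_of_mem (fun v => (split i v).2) hv)]
      refine Finset.sum_congr rfl fun q _ => ?_
      simp only [a, map_sum, Finset.sum_mul]
      refine Finset.sum_congr rfl fun v hv => ?_
      rw [map_mul, C.L_j, mul_assoc]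
      congr 1
      conv_lhs => rw [C.opW_split i v, (Finset.mem_filter.1 hv).2]
    set q₀ := (split i v₀).2 with hq₀
    have hq₀s : q₀ ∈ s := Finset.mem_image_of_mem (fun v => (split i v).2) hv₀
    have hqlen : ∀ q ∈ s, q.1.length ≤ m := by
      intro q hq
      obtain ⟨v, hv, rfl⟩ := Finset.mem_image.1 hq
      have h1 := (hy v hv).1
      have h2 := length_split_le i v
      by_cases h3 : v.1.length = m + 1
      · have := split_length ((hyi v hv).2 h3)
        omega
      · omega
    have hq₀l : q₀.1.length = m := by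
      have := split_length hv₀i
      simp only [hq₀]
      omega
    have ha : a q₀ ≠ 0 := by
      intro h0
      have h := congrArg (fun z => C.r i z (split i v₀).1) h0
      simp only [a, map_sum, C.r_single, Finsupp.finsetSum_apply, map_zero, Finsupp.zero_apply] at h
      rw [Finset.sum_eq_single v₀] at h
      · rw [Finsupp.single_eq_same] at h
        exact Finsupp.mem_support_iff.1 hv₀ h
      · intro v hv hne
        refine Finsupp.single_eq_of_ne fun e => hne ?_
        rw [← cons_split i v, ← cons_split i v₀, (Finset.mem_filter.1 hv).2, e]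
      · exact fun h' => absurd (Finset.mem_filter.2 ⟨hv₀, hq₀.symm⟩) h'
    have hα'' : α * C.L i (a q₀) ∈ C.ring := mul_mem hα (C.L_mem _ _)
    have hbd : ∀ q, Bd (n + 1) (EndsIn i) ((α * C.L i (a q)) (Finsupp.single Word.nil 1)) := fun q => by
      rw [end_mul]
      exact C.bd_right_L hα (hxdef ▸ hxi) _
    have hsmall : Bd n (fun _ => True) ((α * C.L i (a q₀)) (Finsupp.single Word.nil 1)) := by
      refine exists_top ((hbd q₀).mono le_rfl fun _ _ _ => trivial) ?_
      rintro ⟨w, hw, hwl⟩
      obtain ⟨t', ht', ht'i⟩ := (hbd q₀ w hw).2 hwl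
      have hc : List.IsChain (fun a b : Σ i, T i => a.1 ≠ b.1) (w.1 ++ q₀.1) :=
        List.isChain_append.2 ⟨w.2, q₀.2, fun x hx' y hy' e => split_notStart i v₀ y hy' (by
          rw [Option.mem_def] at hx' ht'
          rw [hx', Option.some.injEq] at ht'
          rw [← e, ht', ht'i])⟩
      have hsum : α y = ∑ q ∈ s, (α * C.L i (a q)) (Finsupp.single q 1) := by
        rw [← hydef, hβsum, sum_apply_end, map_sum]
        refine Finset.sum_congr rfl fun q _ => ?_
        rw [end_mul, end_mul, C.opW_nil]
      have := C.top_coeff s (fun q => α * C.L i (a q)) id (fun a _ b _ e => e)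
        (fun q _ => mul_mem hα (C.L_mem _ _)) (n := n + 1) (m := m)
        (fun q _ => (hbd q).mono le_rfl fun _ _ _ => trivial) hqlen hq₀s hq₀l w hwl hc
      simp only [id] at this
      rw [← hsum, hzero, Finsupp.zero_apply] at this
      exact Finsupp.mem_support_iff.1 hw this.symm
    have hy' : Bd (m + 1) (fun _ => True) ((C.L i (a q₀)⁻¹ * β) (Finsupp.single Word.nil 1)) := by
      rw [end_mul, hydef]
      exact C.bd_L_starts i _ hyi
    have hprod : α * C.L i (a q₀) * (C.L i (a q₀)⁻¹ * β) = 0 := by
      rw [mul_assoc, ← mul_assoc (C.L i (a q₀)), ← map_mul, mul_inv_cancel₀ ha, map_one, one_mul, hαβ]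
    rcases ih (n + (m + 1)) (by omega) n (m + 1) rfl _ hα'' _ (mul_mem (C.L_mem _ _) hβ) hprod
      hsmall hy' with h | h
    · refine Or.inl ?_
      calc α = α * C.L i (a q₀) * C.L i (a q₀)⁻¹ := by
            rw [mul_assoc, ← map_mul, mul_inv_cancel₀ ha, map_one, mul_one]
        _ = 0 := by rw [h, zero_mul]
    · refine Or.inr ?_
      calc β = C.L i (a q₀) * (C.L i (a q₀)⁻¹ * β) := by
            rw [← mul_assoc, ← map_mul, mul_inv_cancel₀ ha, map_one, one_mul]
        _ = 0 := by rw [h, mul_zero]

theorem bd_exists (x : Word T →₀ D) : ∃ n, Bd n (fun _ => True) x :=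
  ⟨x.support.sup fun w => w.1.length, fun w hw =>
    ⟨Finset.le_sup (f := fun w : Word T => w.1.length) hw, fun _ => trivial⟩⟩

/-- No zero divisors. -/
theorem eq_zero_or_eq_zero {α β : AddMonoid.End (Word T →₀ D)} (hα : α ∈ C.ring) (hβ : β ∈ C.ring)
    (h : α * β = 0) : α = 0 ∨ β = 0 := by
  obtain ⟨n, hn⟩ := bd_exists (α (Finsupp.single Word.nil 1))
  obtain ⟨m, hm⟩ := bd_exists (β (Finsupp.single Word.nil 1))
  exact C.eq_zero_or_eq_zero_aux _ n m rfl α hα β hβ h hn hm

end Coords

end Vale.Agent.P201
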