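import Mathlib

/-!
Translates of a finite set by part of a free basis.
-/

namespace Vale.Agent.P201

open FreeGroup

variable {α : Type*}

theorem isReduced_cons' {x : α} {b : Bool} {L : List (α × Bool)} (hL : IsReduced L)
    (h : ∀ L', L ≠ (x, !b) :: L') : IsReduced ((x, b) :: L) := by
  cases L with
  | nil => exact IsReduced.singleton
  | cons a r =>
    refine List.isChain_cons_cons.2 ⟨fun he => ?_, hL⟩
    obtain ⟨y, c⟩ := a
    have h' : (y, c) :: r ≠ (x, !b) :: r := h r
    simp only at he
    subst he
    cases b <;> cases c <;> simp_all

variable [DecidableEq α]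

theorem toWord_of_mul {x : α} {f : FreeGroup α} (h : ∀ r, f.toWord ≠ (x, false) :: r) :
    (of x * f).toWord = (x, true) :: f.toWord := by
  have hm : of x * f = mk ((x, true) :: f.toWord) := by
    conv_lhs => rw [← mk_toWord (x := f)]
    rfl
  rw [hm, toWord_mk, IsReduced.reduce_eq]
  exact isReduced_cons' isReduced_toWord h

theorem toWord_inv_of_mul {x : α} {f : FreeGroup α} (h : ∀ r, f.toWord ≠ (x, true) :: r) :
    ((of x)⁻¹ * f).toWord = (x, false) :: f.toWord := by
  have hm : (of x)⁻¹ * f = mk ((x, false) :: f.toWord) := by
    conv_lhs => rw [← mk_toWord (x := f)]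
    rfl
  rw [hm, toWord_mk, IsReduced.reduce_eq]
  exact isReduced_cons' isReduced_toWord h

variable {A : Type*} [Group A] [DecidableEq A]

/-- `L` together with its translates by the chosen generators. -/
noncomputable def outNbhd (ψ : FreeGroup α →* A) (S : Finset α) (L : Finset A) : Finset A :=
  L ∪ S.biUnion fun x => L.image fun l => ψ (of x) * l

theorem mem_outNbhd {ψ : FreeGroup α →* A} {S : Finset α} {L : Finset A} {p : A} :
    p ∈ outNbhd ψ S L ↔ p ∈ L ∨ ∃ x ∈ S, ∃ l ∈ L, ψ (of x) * l = p := by
  simp only [outNbhd, Finset.mem_union, Finset.mem_biUnion, Finset.mem_image]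

theorem card_outNbhd (ψ : FreeGroup α →* A) (hψ : Function.Injective ψ) (S : Finset α)
    (L : Finset A) (hL : L.Nonempty) : S.card * L.card + 1 ≤ (outNbhd ψ S L).card := by
  classical
  let sR : Setoid A :=
    { r := fun a b => b * a⁻¹ ∈ ψ.range
      iseqv :=
        { refl := fun a => by simpa using ψ.range.one_mem
          symm := fun {a b} h => by simpa using ψ.range.inv_mem h
          trans := fun {a b c} h h' => by simpa [mul_assoc] using ψ.range.mul_mem h' h } }
  let rep : A → A := fun a => (Quotient.mk sR a).out
  have hex : ∀ a, ∃ f, ψ f * rep a = a := fun a => by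
    obtain ⟨f, hf⟩ : a * (rep a)⁻¹ ∈ ψ.range := Quotient.exact (Quotient.out_eq (Quotient.mk sR a))
    exact ⟨f, by rw [hf, inv_mul_cancel_right]⟩
  choose fp hfp using hex
  have hmul : ∀ (w : FreeGroup α) (a : A), fp (ψ w * a) = w * fp a := by
    intro w a
    have hrep : rep (ψ w * a) = rep a := by
      show (Quotient.mk sR _).out = (Quotient.mk sR a).out
      congr 1
      exact Quotient.sound ⟨w⁻¹, by simp⟩
    apply hψ
    apply mul_right_cancel (b := rep a)
    have := hfp (ψ w * a)
    rw [hrep] at this
    rw [this, _root_.map_mul, mul_assoc, hfp]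
  have hinj : ∀ (l : A) (x y : α), ψ (of x) * l = ψ (of y) * l → x = y := fun l x y h =>
    of_injective (hψ (mul_right_cancel h))
  induction L using Finset.strongInduction with
  | _ L ih =>
    obtain ⟨l, hl, hmax⟩ := Finset.exists_max_image L (fun a => (fp a).toWord.length) hL
    have hinjl : Function.Injective fun x => ψ (of x) * l := fun x y h => hinj l x y h
    by_cases hsing : (L.erase l).Nonempty
    · have hrec := ih _ (Finset.erase_ssubset hl) hsing
      have hcard : L.card = (L.erase l).card + 1 := (Finset.card_erase_add_one hl).symm
      have hnew : ∀ x ∈ S, (∀ r, (fp l).toWord ≠ (x, false) :: r) →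
          ψ (of x) * l ∉ outNbhd ψ S (L.erase l) := by
        intro x _ hx hmem
        have hlen : (fp (ψ (of x) * l)).toWord.length = (fp l).toWord.length + 1 := by
          rw [hmul, toWord_of_mul hx, List.length_cons]
        rcases mem_outNbhd.1 hmem with hm | ⟨y, _, l', hl', he⟩
        · have := hmax _ (Finset.mem_of_mem_erase hm)
          omega
        · by_cases hxy : y = x
          · subst hxy
            exact (Finset.ne_of_mem_erase hl') (mul_left_cancel he)
          · have hl'e : l' = ψ ((of y)⁻¹) * (ψ (of x) * l) := by
              rw [← he, _root_.map_inv, inv_mul_cancel_left]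
            have := hmax _ (Finset.mem_of_mem_erase hl')
            rw [hl'e, hmul, toWord_inv_of_mul (fun r => ?_), List.length_cons, hlen] at this
            · omega
            · rw [hmul, toWord_of_mul hx]
              intro e
              simp only [List.cons.injEq, Prod.mk.injEq] at e
              exact hxy e.1.1.symm
      by_cases hcase : ∃ x₀ ∈ S, ∃ r, (fp l).toWord = (x₀, false) :: r
      · obtain ⟨x₀, hx₀, r, hr⟩ := hcase
        have hl_new : l ∉ outNbhd ψ S (L.erase l) := by
          intro hmem
          rcases mem_outNbhd.1 hmem with hm | ⟨y, _, l', hl', he⟩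
          · exact (Finset.ne_of_mem_erase hm) rfl
          · have hl'e : l' = ψ ((of y)⁻¹) * l := by rw [← he, _root_.map_inv, inv_mul_cancel_left]
            have := hmax _ (Finset.mem_of_mem_erase hl')
            rw [hl'e, hmul, toWord_inv_of_mul (fun r' => by rw [hr]; simp), List.length_cons] at this
            omega
        let P := insert l ((S.erase x₀).image fun x => ψ (of x) * l)
        have hP : P.card = S.card := by
          rw [Finset.card_insert_of_notMem, Finset.card_image_of_injective _ hinjl,
            Finset.card_erase_add_one hx₀]
          intro h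
          obtain ⟨x, _, hx⟩ := Finset.mem_image.1 h
          have := hψ ((mul_eq_right.1 hx).trans (_root_.map_one ψ).symm)
          exact of_ne_one x this
        have hsub : outNbhd ψ S (L.erase l) ∪ P ⊆ outNbhd ψ S L := by
          intro p hp
          rw [mem_outNbhd]
          rcases Finset.mem_union.1 hp with hp | hp
          · rcases mem_outNbhd.1 hp with hm | ⟨y, hy, l', hl', he⟩
            · exact Or.inl (Finset.mem_of_mem_erase hm)
            · exact Or.inr ⟨y, hy, l', Finset.mem_of_mem_erase hl', he⟩
          · rcases Finset.mem_insert.1 hp with rfl | hp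
            · exact Or.inl hl
            · obtain ⟨x, hx, rfl⟩ := Finset.mem_image.1 hp
              exact Or.inr ⟨x, Finset.mem_of_mem_erase hx, l, hl, rfl⟩
        have hdisj : Disjoint (outNbhd ψ S (L.erase l)) P := by
          rw [Finset.disjoint_right]
          intro p hp
          rcases Finset.mem_insert.1 hp with rfl | hp
          · exact hl_new
          · obtain ⟨x, hx, rfl⟩ := Finset.mem_image.1 hp
            refine hnew x (Finset.mem_of_mem_erase hx) fun r' e => ?_
            rw [hr] at e
            simp only [List.cons.injEq, Prod.mk.injEq] at e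
            exact (Finset.ne_of_mem_erase hx) e.1.1.symm
        have := Finset.card_le_card hsub
        rw [Finset.card_union_of_disjoint hdisj, hP] at this
        rw [hcard, Nat.mul_add, mul_one]
        omega
      · push Not at hcase
        let P := S.image fun x => ψ (of x) * l
        have hP : P.card = S.card := Finset.card_image_of_injective _ hinjl
        have hsub : outNbhd ψ S (L.erase l) ∪ P ⊆ outNbhd ψ S L := by
          intro p hp
          rw [mem_outNbhd]
          rcases Finset.mem_union.1 hp with hp | hp
          · rcases mem_outNbhd.1 hp with hm | ⟨y, hy, l', hl', he⟩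
            · exact Or.inl (Finset.mem_of_mem_erase hm)
            · exact Or.inr ⟨y, hy, l', Finset.mem_of_mem_erase hl', he⟩
          · obtain ⟨x, hx, rfl⟩ := Finset.mem_image.1 hp
            exact Or.inr ⟨x, hx, l, hl, rfl⟩
        have hdisj : Disjoint (outNbhd ψ S (L.erase l)) P := by
          rw [Finset.disjoint_right]
          intro p hp
          obtain ⟨x, hx, rfl⟩ := Finset.mem_image.1 hp
          exact hnew x hx (hcase x hx)
        have := Finset.card_le_card hsub
        rw [Finset.card_union_of_disjoint hdisj, hP] at this
        rw [hcard, Nat.mul_add, mul_one]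
        omega
    · have hLl : L = {l} := by
        refine Finset.eq_singleton_iff_unique_mem.2 ⟨hl, fun a ha => ?_⟩
        by_contra hne
        exact hsing ⟨a, Finset.mem_erase.2 ⟨hne, ha⟩⟩
      subst hLl
      let P := insert l (S.image fun x => ψ (of x) * l)
      have hP : P.card = S.card + 1 := by
        rw [Finset.card_insert_of_notMem, Finset.card_image_of_injective _ hinjl]
        intro h
        obtain ⟨x, _, hx⟩ := Finset.mem_image.1 h
        exact of_ne_one x (hψ ((mul_eq_right.1 hx).trans (_root_.map_one ψ).symm))
      have hsub : P ⊆ outNbhd ψ S {l} := by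
        intro p hp
        rw [mem_outNbhd]
        rcases Finset.mem_insert.1 hp with rfl | hp
        · exact Or.inl (Finset.mem_singleton_self _)
        · obtain ⟨x, hx, rfl⟩ := Finset.mem_image.1 hp
          exact Or.inr ⟨x, hx, l, Finset.mem_singleton_self _, rfl⟩
      have := Finset.card_le_card hsub
      simp only [Finset.card_singleton, mul_one]
      omega

end Vale.Agent.P201
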