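import Vale.Agent.P187.Magnus

/-!
Free groups are bi-orderable.
-/

namespace Vale.Agent.P201

open Vale.Agent.P187.Magnus

variable {X : Type}

/-- The coordinates of a coefficient. -/
abbrev Idx (X : Type) := List X × (ℕ → ℤ) × ℕ

/-- One coordinate. -/
def coord (a : A X) (p : Idx X) : ℤ := a p.1 p.2.1 p.2.2

/-- The first nonzero coordinate is positive. -/
def IsPosCoeff (a : A X) : Prop :=
  ∃ p, 0 < coord a p ∧ ∀ q, WellOrderingRel q p → coord a q = 0

theorem coord_add (a b : A X) (p : Idx X) : coord (a + b) p = coord a p + coord b p := rfl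

theorem coord_neg (a : A X) (p : Idx X) : coord (-a) p = -coord a p := rfl

theorem isPosCoeff_ne_zero {a : A X} (h : IsPosCoeff a) : a ≠ 0 := by
  obtain ⟨p, hp, _⟩ := h
  rintro rfl
  exact lt_irrefl (0 : ℤ) hp

theorem IsPosCoeff.add {a b : A X} (ha : IsPosCoeff a) (hb : IsPosCoeff b) :
    IsPosCoeff (a + b) := by
  obtain ⟨p, hp, hp'⟩ := ha
  obtain ⟨q, hq, hq'⟩ := hb
  rcases trichotomous_of WellOrderingRel p q with h | h | h
  · exact ⟨p, by rw [coord_add, hq' p h]; simpa using hp,
      fun r hr => by rw [coord_add, hp' r hr, hq' r (_root_.trans hr h), add_zero]⟩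
  · subst h
    exact ⟨p, by rw [coord_add]; omega, fun r hr => by rw [coord_add, hp' r hr, hq' r hr, add_zero]⟩
  · exact ⟨q, by rw [coord_add, hp' q h]; simpa using hq,
      fun r hr => by rw [coord_add, hp' r (_root_.trans hr h), hq' r hr, add_zero]⟩

theorem isPosCoeff_or_neg {a : A X} (ha : a ≠ 0) : IsPosCoeff a ∨ IsPosCoeff (-a) := by
  have hne : {p : Idx X | coord a p ≠ 0}.Nonempty := by
    by_contra h
    apply ha
    funext w
    apply LinearMap.ext
    intro f
    funext n
    by_contra h'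
    exact h ⟨(w, f, n), h'⟩
  obtain ⟨p, hp, hmin⟩ := (IsWellFounded.wf (r := WellOrderingRel (α := Idx X))).has_min _ hne
  have h0 : ∀ q, WellOrderingRel q p → coord a q = 0 := fun q hq => by
    by_contra h
    exact hmin q h hq
  rcases lt_or_gt_of_ne hp with h | h
  · exact Or.inr ⟨p, by rw [coord_neg]; omega, fun q hq => by rw [coord_neg, h0 q hq, neg_zero]⟩
  · exact Or.inl ⟨p, h, h0⟩

/-- The positive cone. -/
def Pos (g : FreeGroup X) : Prop := ∃ k, 0 < k ∧ Deep k g ∧ IsPosCoeff (cf k g)

theorem cf_mul_of_deep_right {k : ℕ} (hk : 0 < k) {g h : FreeGroup X} (hh : Deep k h) :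
    cf k (g * h) = cf k g + cf k h := by
  rw [cf_mul, Finset.sum_eq_add ((k, 0) : ℕ × ℕ) (0, k) (by simp; omega)]
  · simp [cf_zero]
  · rintro ⟨p, q⟩ hpq ⟨h1, h2⟩
    have hpq' : p + q = k := Finset.HasAntidiagonal.mem_antidiagonal.1 hpq
    have hq : q ≠ 0 := fun e => h1 (Prod.ext (by simp only; omega) e)
    have hp : p ≠ 0 := fun e => h2 (Prod.ext e (by simp only; omega))
    simp [hh q (by omega) (by omega)]
  · simp
  · simp

theorem Pos.ne_one {g : FreeGroup X} (h : Pos g) : g ≠ 1 := by
  rintro rfl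
  obtain ⟨k, hk, _, hp⟩ := h
  exact isPosCoeff_ne_zero hp (by simp [cf_one]; omega)

theorem Pos.mul {g h : FreeGroup X} (hg : Pos g) (hh : Pos h) : Pos (g * h) := by
  obtain ⟨k, hk, dg, pg⟩ := hg
  obtain ⟨l, hl, dh, ph⟩ := hh
  rcases lt_trichotomy k l with h' | h' | h'
  · refine ⟨k, hk, deep_mul dg (fun i hi hik => dh i hi (hik.trans h')), ?_⟩
    rw [cf_mul_of_deep hk dg, dh k hk h', zero_add]
    exact pg
  · subst h'
    refine ⟨k, hk, deep_mul dg dh, ?_⟩
    rw [cf_mul_of_deep hk dg]
    exact ph.add pg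
  · refine ⟨l, hl, deep_mul (fun i hi hil => dg i hi (hil.trans h')) dh, ?_⟩
    rw [cf_mul_of_deep hl (fun i hi hil => dg i hi (hil.trans h')), dg l hl h', add_zero]
    exact ph

theorem pos_trichotomy (g : FreeGroup X) : g = 1 ∨ Pos g ∨ Pos g⁻¹ := by
  by_cases hg : g = 1
  · exact Or.inl hg
  obtain ⟨k, hk, hd, hne⟩ := exists_depth hg
  rcases isPosCoeff_or_neg hne with h | h
  · exact Or.inr (Or.inl ⟨k, hk, hd, h⟩)
  · exact Or.inr (Or.inr ⟨k, hk, deep_inv hd, by rw [cf_inv hk hd]; exact h⟩)

theorem Pos.conj {g : FreeGroup X} (h : Pos g) (x : FreeGroup X) : Pos (x * g * x⁻¹) := by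
  obtain ⟨k, hk, hd, hp⟩ := h
  refine ⟨k, hk, deep_conj hd x, ?_⟩
  have h1 := cf_mul_of_deep (h := x) hk (deep_conj hd x)
  rw [inv_mul_cancel_right, cf_mul_of_deep_right hk hd] at h1
  rwa [← add_left_cancel h1]

/-- Free groups are bi-orderable. -/
theorem exists_biorder (X : Type) :
    ∃ o : LinearOrder (FreeGroup X), @MulLeftMono (FreeGroup X) _ o.toLE ∧
      @MulRightMono (FreeGroup X) _ o.toLE := by
  classical
  let le : FreeGroup X → FreeGroup X → Prop := fun a b => a = b ∨ Pos (a⁻¹ * b)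
  have hant : ∀ g : FreeGroup X, Pos g → ¬ Pos g⁻¹ := fun g h h' =>
    (h.mul h').ne_one (mul_inv_cancel g)
  let o : LinearOrder (FreeGroup X) :=
    { le := le
      le_refl := fun a => Or.inl rfl
      le_trans := fun a b c hab hbc => by
        rcases hab with rfl | hab
        · exact hbc
        rcases hbc with rfl | hbc
        · exact Or.inr hab
        · exact Or.inr (by simpa [mul_assoc] using hab.mul hbc)
      le_antisymm := fun a b hab hba => by
        rcases hab with rfl | hab
        · rfl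
        rcases hba with rfl | hba
        · rfl
        · exact absurd hba (by simpa using hant _ hab)
      le_total := fun a b => by
        rcases pos_trichotomy (a⁻¹ * b) with h | h | h
        · exact Or.inl (Or.inl (inv_mul_eq_one.1 h))
        · exact Or.inl (Or.inr h)
        · exact Or.inr (Or.inr (by simpa using h))
      toDecidableLE := Classical.decRel _ }
  refine ⟨o, ?_, ?_⟩
  · refine @CovariantClass.mk _ _ _ _ fun c a b hab => ?_
    rcases hab with rfl | hab
    · exact Or.inl rfl
    · exact Or.inr (by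
        show Pos ((c * a)⁻¹ * (c * b))
        simpa [mul_assoc] using hab)
  · refine @CovariantClass.mk _ _ _ _ fun c a b hab => ?_
    rcases hab with rfl | hab
    · exact Or.inl rfl
    · refine Or.inr ?_
      show Pos ((a * c)⁻¹ * (b * c))
      have := hab.conj c⁻¹
      simpa [mul_assoc] using this

end Vale.Agent.P201
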