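import Vale.Agent.P201.Amalgam
import Vale.Agent.P201.FreeOrder

/-!
Amalgams of free groups over an arbitrary common subgroup.
-/

namespace Vale.Agent.P201

open Monoid

theorem nice_free_amalgam {K : Type*} [Field K] {ι : Type*} [Nonempty ι] (X : ι → Type)
    {H : Type} [Group H] (φ : ∀ i, H →* FreeGroup (X i)) (hφ : ∀ i, Function.Injective (φ i)) :
    Nice (MonoidAlgebra K (PushoutI φ)) := by
  obtain ⟨i₀⟩ := ‹Nonempty ι›
  choose o hl hr using fun i => exists_biorder (X i)
  let e : H ≃* FreeGroup (IsFreeGroup.Generators (φ i₀).range) :=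
    (MonoidHom.ofInjective (hφ i₀)).trans (IsFreeGroup.toFreeGroup _)
  let ψ : ∀ i, FreeGroup (IsFreeGroup.Generators (φ i₀).range) →* FreeGroup (X i) :=
    fun i => (φ i).comp e.symm.toMonoidHom
  have hψ : ∀ i, Function.Injective (ψ i) := fun i => (hφ i).comp e.symm.injective
  letI := o
  haveI := hl
  haveI := hr
  have hN := nice_pushout (K := K) ψ hψ
  let f : PushoutI φ →* PushoutI ψ :=
    PushoutI.lift (fun i => (PushoutI.of (φ := ψ) i : FreeGroup (X i) →* PushoutI ψ)) ((PushoutI.base ψ).comp e.toMonoidHom)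
      fun i => MonoidHom.ext fun h => by
        rw [MonoidHom.comp_apply, MonoidHom.comp_apply, ← PushoutI.of_apply_eq_base ψ i (e.toMonoidHom h)]
        simp [ψ]
  let g : PushoutI ψ →* PushoutI φ :=
    PushoutI.lift (fun i => (PushoutI.of (φ := φ) i : FreeGroup (X i) →* PushoutI φ)) ((PushoutI.base φ).comp e.symm.toMonoidHom)
      fun i => MonoidHom.ext fun h => by
        simp [ψ, PushoutI.of_apply_eq_base]
  have hgf : g.comp f = MonoidHom.id _ :=
    PushoutI.hom_ext_nonempty fun i => MonoidHom.ext fun x => by simp [f, g]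
  have hf : Function.Injective f := fun a b h => by
    have := congrArg g h
    rwa [← MonoidHom.comp_apply, ← MonoidHom.comp_apply, hgf] at this
  exact Nice.of_injective (MonoidAlgebra.mapDomainRingHom K f)
    (MonoidAlgebra.mapDomain_injective hf) hN

theorem noZeroDivisors_free_amalgam {K : Type*} [Field K] {ι : Type*} [Nonempty ι] (X : ι → Type)
    {H : Type} [Group H] (φ : ∀ i, H →* FreeGroup (X i)) (hφ : ∀ i, Function.Injective (φ i)) :
    NoZeroDivisors (MonoidAlgebra K (PushoutI φ)) :=
  (nice_free_amalgam X φ hφ).1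

end Vale.Agent.P201
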