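import Vale.Agent.P201.FreeAmalgam
import Mathlib.GroupTheory.PresentedGroup
import Mathlib.GroupTheory.SemidirectProduct

/-!
Multiple HNN extensions of free groups with arbitrary associated subgroups embed into amalgams of
two free groups, so their group algebras have no zero divisors.
-/

namespace Vale.Agent.P201

open Monoid

section Functorial

variable {ι : Type*} {M N : ι → Type*} [∀ i, Monoid (M i)] [∀ i, Monoid (N i)]

/-- A family of injective homomorphisms induces an injective map of free products. -/
theorem coprodI_map_injective (f : ∀ i, M i →* N i) (hf : ∀ i, Function.Injective (f i)) :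
    Function.Injective (CoprodI.lift fun i => (CoprodI.of (M := N) (i := i)).comp (f i)) := by
  classical
  let g : (Σ i, M i) → Σ i, N i := fun l => ⟨l.1, f l.1 l.2⟩
  have hg : Function.Injective g := by
    rintro ⟨i, x⟩ ⟨j, y⟩ h
    obtain ⟨rfl, h2⟩ := Sigma.mk.inj_iff.1 h
    obtain rfl := hf i (eq_of_heq h2)
    rfl
  let T : CoprodI.Word M → CoprodI.Word N := fun w =>
    { toList := w.toList.map g
      ne_one := by
        intro l hl
        obtain ⟨l', hl', rfl⟩ := List.mem_map.1 hl
        exact fun h => w.ne_one l' hl' (hf _ (h.trans (map_one _).symm))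
      chain_ne := (List.isChain_map g).2 w.chain_ne }
  have key : ∀ w : CoprodI.Word M,
      CoprodI.lift (fun i => (CoprodI.of (M := N) (i := i)).comp (f i)) w.prod = (T w).prod := by
    intro w
    simp only [CoprodI.Word.prod, map_list_prod, List.map_map, T]
    congr 1
  intro a b h
  obtain ⟨v, rfl⟩ := CoprodI.Word.equiv.symm.surjective a
  obtain ⟨w, rfl⟩ := CoprodI.Word.equiv.symm.surjective b
  have h' : (T v).prod = (T w).prod := by
    rw [← key, ← key]
    exact h
  have h'' : T v = T w := CoprodI.Word.equiv.symm.injective h'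
  have : v = w := CoprodI.Word.ext (List.map_injective_iff.2 hg (congrArg CoprodI.Word.toList h''))
  rw [this]

end Functorial

section Conjugates

variable {X κ : Type}

/-- Free product of copies of one group, with the index set permuted. -/
def shiftEquiv {A : Type} [Group A] {W : Type} (e : W ≃ W) :
    MulAut (CoprodI fun _ : W => A) :=
  MonoidHom.toMulEquiv (CoprodI.lift fun w => CoprodI.of (M := fun _ : W => A) (i := e w))
    (CoprodI.lift fun w => CoprodI.of (M := fun _ : W => A) (i := e.symm w))
    (CoprodI.ext_hom _ _ fun w => MonoidHom.ext fun a => by simp)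
    (CoprodI.ext_hom _ _ fun w => MonoidHom.ext fun a => by simp)

theorem shiftEquiv_of {A : Type} [Group A] {W : Type} (e : W ≃ W) (w : W) (a : A) :
    shiftEquiv e (CoprodI.of (M := fun _ : W => A) (i := w) a) = CoprodI.of (i := e w) a := by
  simp [shiftEquiv]

/-- The base letters of a multiple HNN extension. -/
def inlHom : FreeGroup X →* FreeGroup (X ⊕ κ) := FreeGroup.map Sum.inl

/-- Conjugating letters: `1` and the stable letters. -/
def conjLetter : Option κ → FreeGroup (X ⊕ κ)
  | none => 1
  | some k => FreeGroup.of (Sum.inr k)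

/-- The conjugates of the base by `1` and the stable letters generate their free product. -/
def conjHom : CoprodI (fun _ : Option κ => FreeGroup X) →* FreeGroup (X ⊕ κ) :=
  CoprodI.lift fun o => (MulAut.conj (conjLetter o)).toMonoidHom.comp inlHom

theorem conjHom_injective : Function.Injective (conjHom (X := X) (κ := κ)) := by
  classical
  let A := FreeGroup X
  let θ : FreeGroup κ →* MulAut (CoprodI fun _ : FreeGroup κ => A) :=
    FreeGroup.lift fun k => shiftEquiv (Equiv.mulLeft (FreeGroup.of k))
  let χ : FreeGroup (X ⊕ κ) →* (CoprodI fun _ : FreeGroup κ => A) ⋊[θ] FreeGroup κ :=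
    FreeGroup.lift (Sum.elim
      (fun x => SemidirectProduct.inl
        (CoprodI.of (M := fun _ : FreeGroup κ => A) (i := 1) (FreeGroup.of x)))
      (fun k => SemidirectProduct.inr (FreeGroup.of k)))
  have hχl : ∀ a : A, χ (inlHom a)
      = SemidirectProduct.inl (CoprodI.of (M := fun _ : FreeGroup κ => A) (i := 1) a) := by
    intro a
    exact DFunLike.congr_fun (FreeGroup.ext_hom (χ.comp inlHom)
      (SemidirectProduct.inl.comp (CoprodI.of (M := fun _ : FreeGroup κ => A) (i := 1)))
      (fun x => by simp [χ, inlHom])) a
  let e : Option κ → FreeGroup κ := fun o => o.elim 1 FreeGroup.of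
  have he : Function.Injective e := by
    intro o o' h
    cases o <;> cases o'
    · rfl
    · exact absurd h.symm (FreeGroup.of_ne_one _)
    · exact absurd h (FreeGroup.of_ne_one _)
    · exact congrArg some (FreeGroup.of_injective h)
  let re : CoprodI (fun _ : Option κ => A) →* CoprodI (fun _ : FreeGroup κ => A) :=
    CoprodI.lift fun o => CoprodI.of (M := fun _ : FreeGroup κ => A) (i := e o)
  let pr : CoprodI (fun _ : FreeGroup κ => A) →* CoprodI (fun _ : Option κ => A) :=
    CoprodI.lift fun w => if h : ∃ o, e o = w
      then CoprodI.of (M := fun _ : Option κ => A) (i := h.choose) else 1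
  have hre : pr.comp re = MonoidHom.id _ := by
    refine CoprodI.ext_hom _ _ fun o => MonoidHom.ext fun a => ?_
    have h : ∃ o', e o' = e o := ⟨o, rfl⟩
    simp only [MonoidHom.comp_apply, MonoidHom.id_apply, re, pr, CoprodI.lift_of, dif_pos h,
      he h.choose_spec]
  have hfac : χ.comp conjHom = SemidirectProduct.inl.comp re := by
    refine CoprodI.ext_hom _ _ fun o => MonoidHom.ext fun a => ?_
    cases o with
    | none => simp [conjHom, conjLetter, re, e, hχl]
    | some k =>
      simp only [MonoidHom.comp_apply, conjHom, CoprodI.lift_of, MulEquiv.coe_toMonoidHom,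
        MulAut.conj_apply, conjLetter, map_mul, map_inv, hχl, re]
      rw [show χ (FreeGroup.of (Sum.inr k)) = SemidirectProduct.inr (FreeGroup.of k) by simp [χ],
        ← map_inv, ← SemidirectProduct.inl_aut]
      simp [θ, e, shiftEquiv_of]
  intro a b h
  have h1 := congrArg χ h
  rw [← MonoidHom.comp_apply, ← MonoidHom.comp_apply, hfac] at h1
  have h2 := congrArg pr (SemidirectProduct.inl_injective h1)
  rwa [← MonoidHom.comp_apply, ← MonoidHom.comp_apply, hre] at h2

end Conjugates

section Hnn

variable {X κ : Type} (C : κ → Subgroup (FreeGroup X)) (φ : ∀ k, ↥(C k) →* FreeGroup X)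

/-- The defining relations of the multiple HNN extension. -/
def hnnRels : Set (FreeGroup (X ⊕ κ)) :=
  Set.range fun p : Σ k, ↥(C k) =>
    FreeGroup.of (Sum.inr p.1) * FreeGroup.map Sum.inl (p.2 : FreeGroup X)
      * (FreeGroup.of (Sum.inr p.1))⁻¹ * (FreeGroup.map Sum.inl (φ p.1 p.2))⁻¹

/-- The whole base and the associated subgroups. -/
def edgeSub : Option κ → Subgroup (FreeGroup X)
  | none => ⊤
  | some k => C k

/-- The target edge maps. -/
def edgeMap : ∀ o, ↥(edgeSub C o) →* FreeGroup X
  | none => (⊤ : Subgroup (FreeGroup X)).subtype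
  | some k => φ k

/-- The amalgamated subgroup, built from a family of edge maps. -/
def edgeHom (f : ∀ o, ↥(edgeSub C o) →* FreeGroup X) :
    CoprodI (fun o => ↥(edgeSub C o)) →* FreeGroup (X ⊕ κ) :=
  conjHom.comp (CoprodI.lift fun o =>
    (CoprodI.of (M := fun _ : Option κ => FreeGroup X) (i := o)).comp (f o))

theorem edgeHom_injective (f : ∀ o, ↥(edgeSub C o) →* FreeGroup X)
    (hf : ∀ o, Function.Injective (f o)) : Function.Injective (edgeHom C f) :=
  conjHom_injective.comp (coprodI_map_injective f hf)

theorem edgeHom_of (f : ∀ o, ↥(edgeSub C o) →* FreeGroup X) (o : Option κ) (c : ↥(edgeSub C o)) :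
    edgeHom C f (CoprodI.of c) = conjLetter o * inlHom (f o c) * (conjLetter o)⁻¹ := by
  simp [edgeHom, conjHom]

/-- The two embeddings of the amalgamated subgroup. -/
def sideHom : Bool → CoprodI (fun o => ↥(edgeSub C o)) →* FreeGroup (X ⊕ κ)
  | true => edgeHom C fun o => (edgeSub C o).subtype
  | false => edgeHom C (edgeMap C φ)

theorem sideHom_injective (hφ : ∀ k, Function.Injective (φ k)) :
    ∀ b, Function.Injective (sideHom C φ b)
  | true => edgeHom_injective C _ fun o => Subgroup.subtype_injective _
  | false => edgeHom_injective C _ fun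
    | none => Subgroup.subtype_injective _
    | some k => hφ k

/-- The amalgam of two free groups containing the HNN extension. -/
abbrev Double := PushoutI (G := fun _ : Bool => FreeGroup (X ⊕ κ)) (sideHom C φ)

/-- One free factor of the amalgam. -/
def side (b : Bool) : FreeGroup (X ⊕ κ) →* Double C φ := PushoutI.of (φ := sideHom C φ) b

theorem side_edge (o : Option κ) (c : ↥(edgeSub C o)) :
    side C φ true (conjLetter o * inlHom ((edgeSub C o).subtype c) * (conjLetter o)⁻¹)
      = side C φ false (conjLetter o * inlHom (edgeMap C φ o c) * (conjLetter o)⁻¹) := by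
  rw [← edgeHom_of C (fun o => (edgeSub C o).subtype) o c, ← edgeHom_of C (edgeMap C φ) o c]
  exact (PushoutI.of_apply_eq_base (sideHom C φ) true (CoprodI.of c)).trans
    (PushoutI.of_apply_eq_base (sideHom C φ) false (CoprodI.of c)).symm

theorem side_base (a : FreeGroup X) : side C φ true (inlHom a) = side C φ false (inlHom a) := by
  have h := side_edge C φ none ⟨a, Subgroup.mem_top a⟩
  simp only [conjLetter, one_mul, inv_one, mul_one] at h
  exact h

/-- Images of the generators. -/
def genImage : X ⊕ κ → Double C φ :=
  Sum.elim (fun x => side C φ true (FreeGroup.of (Sum.inl x))) fun k =>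
    (side C φ false (FreeGroup.of (Sum.inr k)))⁻¹ * side C φ true (FreeGroup.of (Sum.inr k))

theorem lift_genImage_inlHom (a : FreeGroup X) :
    FreeGroup.lift (genImage C φ) (inlHom a) = side C φ true (inlHom a) :=
  DFunLike.congr_fun (FreeGroup.ext_hom ((FreeGroup.lift (genImage C φ)).comp inlHom)
    ((side C φ true).comp inlHom) (fun x => by simp [genImage, inlHom])) a

theorem lift_genImage_rel : ∀ r ∈ hnnRels C φ, FreeGroup.lift (genImage C φ) r = 1 := by
  rintro _ ⟨⟨k, c⟩, rfl⟩
  have h1 : side C φ true (FreeGroup.of (Sum.inr k) * inlHom (c : FreeGroup X)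
        * (FreeGroup.of (Sum.inr k))⁻¹)
      = side C φ false (FreeGroup.of (Sum.inr k) * inlHom (φ k c)
        * (FreeGroup.of (Sum.inr k))⁻¹) := side_edge C φ (some k) c
  simp only [map_mul, map_inv, ← side_base C φ (φ k c)] at h1
  change FreeGroup.lift (genImage C φ) (FreeGroup.of (Sum.inr k) * inlHom (c : FreeGroup X)
    * (FreeGroup.of (Sum.inr k))⁻¹ * (inlHom (φ k c))⁻¹) = 1
  simp only [map_mul, map_inv, lift_genImage_inlHom]
  simp only [FreeGroup.lift_apply_of, genImage, Sum.elim_inr, mul_inv_rev]
  calc _ = (side C φ false (FreeGroup.of (Sum.inr k)))⁻¹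
        * (side C φ true (FreeGroup.of (Sum.inr k)) * side C φ true (inlHom (c : FreeGroup X))
          * (side C φ true (FreeGroup.of (Sum.inr k)))⁻¹)
        * side C φ false (FreeGroup.of (Sum.inr k)) * (side C φ true (inlHom (φ k c)))⁻¹ := by group
    _ = 1 := by rw [h1]; group

/-- The embedding of the HNN extension in the amalgam. -/
def hnnToDouble : PresentedGroup (hnnRels C φ) →* Double C φ :=
  PresentedGroup.toGroup (lift_genImage_rel C φ)

/-- The two halves of the retraction. -/
def back : Bool → FreeGroup (X ⊕ κ) →* PresentedGroup (hnnRels C φ)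
  | true => PresentedGroup.mk _
  | false => FreeGroup.lift (Sum.elim (fun x => PresentedGroup.of (Sum.inl x)) fun _ => 1)

theorem back_inlHom (a : FreeGroup X) : back C φ false (inlHom a) = back C φ true (inlHom a) :=
  DFunLike.congr_fun (FreeGroup.ext_hom ((back C φ false).comp inlHom)
    ((back C φ true).comp inlHom) (fun x => by simp [back, inlHom, PresentedGroup.of])) a

theorem back_side : (back C φ false).comp (sideHom C φ false)
    = (back C φ true).comp (sideHom C φ true) := by
  refine CoprodI.ext_hom _ _ fun o => MonoidHom.ext fun c => ?_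
  simp only [MonoidHom.comp_apply, sideHom, edgeHom_of, map_mul, map_inv, back_inlHom]
  cases o with
  | none =>
    simp [conjLetter, edgeMap]
    rfl
  | some k =>
    have hV1 : back C φ false (conjLetter (some k)) = 1 := by simp [back, conjLetter]
    rw [hV1, one_mul, inv_one, mul_one]
    have h : back C φ true (FreeGroup.of (Sum.inr k) * inlHom ((c : ↥(C k)) : FreeGroup X)
        * (FreeGroup.of (Sum.inr k))⁻¹ * (inlHom (φ k c))⁻¹) = 1 :=
      PresentedGroup.one_of_mem ⟨⟨k, c⟩, rfl⟩
    simp only [map_mul, map_inv] at h
    exact (mul_inv_eq_one.1 h).symm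

/-- The retraction. -/
def doubleToHnn : Double C φ →* PresentedGroup (hnnRels C φ) :=
  PushoutI.lift (back C φ) ((back C φ true).comp (sideHom C φ true)) fun
    | true => rfl
    | false => back_side C φ

theorem doubleToHnn_side (b : Bool) (a : FreeGroup (X ⊕ κ)) :
    doubleToHnn C φ (side C φ b a) = back C φ b a :=
  PushoutI.lift_of (φ := sideHom C φ) _ _ _ a

theorem hnnToDouble_injective : Function.Injective (hnnToDouble C φ) := by
  have hrf : (doubleToHnn C φ).comp (hnnToDouble C φ) = MonoidHom.id _ := by
    refine PresentedGroup.ext fun x => ?_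
    cases x <;> simp [hnnToDouble, genImage, doubleToHnn_side, back] <;> rfl
  intro a b h
  have := congrArg (doubleToHnn C φ) h
  rwa [← MonoidHom.comp_apply, ← MonoidHom.comp_apply, hrf] at this

/-- Group algebras of multiple HNN extensions of free groups have no zero divisors. -/
theorem nice_free_hnn {K : Type*} [Field K] (hφ : ∀ k, Function.Injective (φ k)) :
    Nice (MonoidAlgebra K (PresentedGroup (hnnRels C φ))) := by
  exact Nice.of_injective (MonoidAlgebra.mapDomainRingHom K (hnnToDouble C φ))
    (MonoidAlgebra.mapDomain_injective (hnnToDouble_injective C φ))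
    (nice_free_amalgam (K := K) (fun _ : Bool => X ⊕ κ) (sideHom C φ) (sideHom_injective C φ hφ))

theorem noZeroDivisors_free_hnn {K : Type*} [Field K] (hφ : ∀ k, Function.Injective (φ k)) :
    NoZeroDivisors (MonoidAlgebra K (PresentedGroup (hnnRels C φ))) :=
  (nice_free_hnn C φ hφ).1

end Hnn

end Vale.Agent.P201
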