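import Vale.Agent.P201.MN

/-!
Leading exponents and series supported in a subgroup.
-/

namespace Vale.Agent.P201

set_option linter.unusedSectionVars false

open Function Set

variable {G : Type*} [Group G] [LinearOrder G] [MulLeftMono G] [MulRightMono G]
variable {K : Type*} [Field K]

namespace MN

/-- `g` is the least exponent of `f`. -/
def IsLead (f : MN G K) (g : G) : Prop := f.coeff g ≠ 0 ∧ ∀ y, y < g → f.coeff y = 0

theorem exists_lead {f : MN G K} (hf : f ≠ 0) : ∃ g, IsLead f g := by
  have hne : (Function.support f.coeff).Nonempty := by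
    by_contra h
    rw [Set.not_nonempty_iff_eq_empty, Function.support_eq_empty_iff] at h
    exact hf (MN.ext h)
  refine ⟨f.pwo.isWF.min hne, f.pwo.isWF.min_mem hne, fun y hy => ?_⟩
  by_contra h
  exact f.pwo.isWF.not_lt_min hne h hy

theorem IsLead.ne_zero {f : MN G K} {g : G} (h : IsLead f g) : f ≠ 0 := by
  rintro rfl
  exact h.1 rfl

theorem IsLead.single_mul {f : MN G K} {g : G} (h : IsLead f g) (a : G) :
    IsLead (single a 1 * f) (a * g) := by
  refine ⟨by rw [single_mul_coeff, one_mul, inv_mul_cancel_left]; exact h.1, fun y hy => ?_⟩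
  rw [single_mul_coeff, one_mul]
  refine h.2 _ ?_
  exact inv_mul_lt_iff_lt_mul.2 hy

theorem coeff_sum {ι : Type*} (s : Finset ι) (f : ι → MN G K) (x : G) :
    (∑ i ∈ s, f i).coeff x = ∑ i ∈ s, (f i).coeff x := by
  exact (congrFun (map_sum (coeffHom (G := G) (K := K)) f s) x).trans (Finset.sum_apply x s _)

theorem linearIndependent_of_lead {ι : Type*} (f : ι → MN G K) (l : ι → G)
    (hl : Function.Injective l) (h : ∀ i, IsLead (f i) (l i)) : LinearIndependent K f := by
  classical
  rw [linearIndependent_iff']
  intro s c hsum i hi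
  by_contra hci
  obtain ⟨i₀, hi₀, hmin⟩ := Finset.exists_min_image (s.filter fun j => c j ≠ 0) l
    ⟨i, Finset.mem_filter.2 ⟨hi, hci⟩⟩
  obtain ⟨hi₀s, hc₀⟩ := Finset.mem_filter.1 hi₀
  have h0 := congrArg (fun z => z.coeff (l i₀)) hsum
  simp only [coeff_sum, coeff_smul, Pi.smul_apply, coeff_zero, Pi.zero_apply, smul_eq_mul] at h0
  rw [Finset.sum_eq_single i₀] at h0
  · exact (h i₀).1 ((mul_eq_zero.1 h0).resolve_left hc₀)
  · intro j hj hne
    by_cases hcj : c j = 0
    · rw [hcj, zero_mul]
    rw [(h j).2 _ (lt_of_le_of_ne (hmin j (Finset.mem_filter.2 ⟨hj, hcj⟩))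
      fun e => hne (hl e.symm)), mul_zero]
  · exact fun hn => absurd hi₀s hn

/-- A finite-dimensional space has exactly as many leading exponents as its dimension. -/
theorem exists_lead_set (V : Submodule K (MN G K)) [FiniteDimensional K V] :
    ∃ L : Finset G, L.card = Module.finrank K V ∧ ∀ g ∈ L, ∃ v ∈ V, IsLead v g := by
  classical
  set Ls : Set G := {g | ∃ v ∈ V, IsLead v g} with hLs
  have hbound : ∀ T : Finset G, ↑T ⊆ Ls → T.card ≤ Module.finrank K V := by
    intro T hT
    choose v hv hlead using fun g : T => hT g.2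
    have hli : LinearIndependent K fun g : T => (⟨v g, hv g⟩ : V) :=
      LinearIndependent.of_comp V.subtype
        (linearIndependent_of_lead (fun g : T => v g) (fun g => (g : G)) Subtype.val_injective hlead)
    simpa using hli.fintype_card_le_finrank
  have hfin : Ls.Finite := by
    by_contra h
    obtain ⟨T, hT, hTc⟩ := Set.Infinite.exists_subset_card_eq h (Module.finrank K V + 1)
    have := hbound T hT
    omega
  refine ⟨hfin.toFinset, le_antisymm (hbound _ (by simp)) ?_,
    fun g hg => hfin.mem_toFinset.1 hg⟩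
  let T : V →ₗ[K] (hfin.toFinset → K) :=
    { toFun := fun v g => (v : MN G K).coeff g
      map_add' := fun _ _ => rfl
      map_smul' := fun _ _ => rfl }
  have hinj : Function.Injective T := by
    rw [injective_iff_map_eq_zero]
    intro v hv
    by_contra hv0
    obtain ⟨g, hg⟩ := exists_lead (f := (v : MN G K)) fun e => hv0 (Subtype.ext e)
    exact hg.1 (congrFun hv ⟨g, hfin.mem_toFinset.2 ⟨v, v.2, hg⟩⟩)
  simpa using LinearMap.finrank_le_finrank_of_injective hinj

/-! ### Series supported in a subgroup -/

variable (K)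

/-- The series supported in a subgroup. -/
noncomputable def supported (H : Subgroup G) : Subring (MN G K) where
  carrier := {f | ∀ x, f.coeff x ≠ 0 → x ∈ H}
  zero_mem' := fun x hx => absurd rfl hx
  one_mem' := fun x hx => by
    rw [one_def, coeff_single] at hx
    by_cases h : x = 1
    · exact h ▸ H.one_mem
    · simp [h] at hx
  add_mem' := fun {f g} hf hg x hx => by
    by_cases h : f.coeff x = 0
    · exact hg x (by simpa [h] using hx)
    · exact hf x h
  neg_mem' := fun {f} hf x hx => hf x (by simpa using hx)
  mul_mem' := fun {f g} hf hg x hx => by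
    obtain ⟨a, ha⟩ : ∃ a, f.coeff a * g.coeff (a⁻¹ * x) ≠ 0 := by
      by_contra h
      push Not at h
      exact hx (by rw [coeff_mul]; exact finsum_eq_zero_of_forall_eq_zero h)
    have := H.mul_mem (hf a (left_ne_zero_of_mul ha)) (hg _ (right_ne_zero_of_mul ha))
    rwa [mul_inv_cancel_left] at this

variable {K}

theorem single_mem_supported {H : Subgroup G} {g : G} (hg : g ∈ H) (c : K) :
    single g c ∈ supported K H := fun x hx => by
  rw [coeff_single] at hx
  by_cases h : x = g
  · exact h ▸ hg
  · simp [h] at hx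

/-- Restriction of the exponents to a subgroup. -/
noncomputable def proj (H : Subgroup G) (f : MN G K) : MN G K :=
  ⟨(H : Set G).indicator f.coeff, f.pwo.mono fun x hx => by
    rw [Function.mem_support, Set.indicator_apply_ne_zero] at hx
    exact hx.2⟩

theorem inv_mem_supported {H : Subgroup G} {f : MN G K} (hf : f ∈ supported K H) :
    f⁻¹ ∈ supported K H := by
  classical
  by_cases hf0 : f = 0
  · subst hf0
    rw [inv_zero]
    exact (supported K H).zero_mem
  have h1 : f * proj H f⁻¹ = 1 := by
    ext x
    rw [coeff_mul]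
    by_cases hx : x ∈ H
    · rw [← mul_inv_cancel₀ hf0, coeff_mul]
      refine finsum_congr fun a => ?_
      by_cases ha : f.coeff a = 0
      · simp [ha]
      congr 1
      exact Set.indicator_of_mem (H.mul_mem (H.inv_mem (hf a ha)) hx) _
    · have hx1 : x ≠ 1 := fun e => hx (e ▸ H.one_mem)
      rw [one_def, coeff_single, if_neg hx1]
      refine finsum_eq_zero_of_forall_eq_zero fun a => ?_
      by_contra ha
      obtain ⟨ha1, ha2⟩ := mul_ne_zero_iff.1 ha
      have hm : a⁻¹ * x ∈ H := by
        by_contra hm
        exact ha2 (Set.indicator_of_notMem hm _)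
      have := H.mul_mem (hf a ha1) hm
      rw [mul_inv_cancel_left] at this
      exact hx this
  rw [← eq_inv_of_mul_eq_one_right h1]
  intro x hx
  by_contra hxH
  exact hx (Set.indicator_of_notMem hxH _)

theorem coset_independent {H : Subgroup G} (s : Finset G)
    (hs : ∀ a ∈ s, ∀ b ∈ s, a⁻¹ * b ∈ H → a = b) (d : G → MN G K)
    (hd : ∀ a ∈ s, d a ∈ supported K H) (h : ∑ a ∈ s, single a 1 * d a = 0) :
    ∀ a ∈ s, d a = 0 := by
  intro a ha
  ext y
  by_cases hy : y ∈ H
  · have := congrArg (fun z => z.coeff (a * y)) h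
    simp only [coeff_sum, coeff_zero, Pi.zero_apply] at this
    rw [Finset.sum_eq_single a] at this
    · simpa [single_mul_coeff] using this
    · intro b hb hne
      rw [single_mul_coeff, one_mul]
      by_contra h'
      have hm := H.mul_mem (hd b hb _ h') (H.inv_mem hy)
      rw [← mul_assoc b⁻¹, mul_inv_cancel_right] at hm
      exact hne (hs b hb a ha hm)
    · exact fun hn => absurd ha hn
  · by_contra h'
    exact hy (hd a ha y h')

end MN

end Vale.Agent.P201
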