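import Mathlib

/-!
Malcev-Neumann series over a bi-ordered group.
-/

namespace Vale.Agent.P201

set_option linter.unusedSectionVars false

open Function Set
open scoped Pointwise

variable {G : Type*} [Group G] [LinearOrder G] [MulLeftMono G] [MulRightMono G]
variable {K : Type*} [Field K]

theorem isPWO_mul {s t : Set G} (hs : s.IsPWO) (ht : t.IsPWO) : (s * t).IsPWO := by
  rw [← image_mul_prod]
  exact (hs.prod ht).image_of_monotone (monotone_fst.mul' monotone_snd)

theorem prod_le_of_sublist {l₁ l₂ : List G} (h : List.SublistForall₂ (· ≤ ·) l₁ l₂)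
    (h2 : ∀ x ∈ l₂, 1 ≤ x) : l₁.prod ≤ l₂.prod := by
  induction h with
  | @nil l =>
    induction l with
    | nil => exact le_rfl
    | cons a r ih =>
      rw [List.prod_nil] at ih ⊢
      rw [List.prod_cons]
      exact one_le_mul (h2 a List.mem_cons_self) (ih fun x hx => h2 x (List.mem_cons_of_mem _ hx))
  | @cons a b r s hab _ ih =>
    rw [List.prod_cons, List.prod_cons]
    exact mul_le_mul' hab (ih fun x hx => h2 x (List.mem_cons_of_mem _ hx))
  | @cons_right b r s _ ih =>
    rw [List.prod_cons]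
    exact le_mul_of_one_le_of_le (h2 b List.mem_cons_self)
      (ih fun x hx => h2 x (List.mem_cons_of_mem _ hx))

theorem isPWO_closure {s : Set G} (hs : s.IsPWO) (hpos : ∀ x ∈ s, 1 ≤ x) :
    (Submonoid.closure s : Set G).IsPWO := by
  rw [Submonoid.closure_eq_image_prod]
  refine (hs.partiallyWellOrderedOn_sublistForall₂ (· ≤ ·)).image_of_monotone_on ?_
  exact fun l1 _ l2 hl2 h12 => prod_le_of_sublist h12 fun x hx => hpos x (hl2 x hx)

theorem finite_fiber {s t : Set G} (hs : s.IsPWO) (ht : t.IsPWO) (x : G) :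
    {a | a ∈ s ∧ a⁻¹ * x ∈ t}.Finite := by
  by_contra h
  have h' : Set.Infinite {a | a ∈ s ∧ a⁻¹ * x ∈ t} := h
  let e := h'.natEmbedding
  have he : ∀ n, (e n : G) ∈ s ∧ (e n : G)⁻¹ * x ∈ t := fun n => (e n).2
  obtain ⟨g, hg⟩ := hs.exists_monotone_subseq (f := fun n => (e n : G)) fun n => (he n).1
  obtain ⟨g', hg'⟩ := ht.exists_monotone_subseq (f := fun n => (e (g n) : G)⁻¹ * x)
    fun n => (he (g n)).2
  have h1 : (e (g (g' 0)) : G) ≤ e (g (g' 1)) := hg (g'.monotone zero_le_one)
  have h2 : (e (g (g' 0)) : G)⁻¹ * x ≤ (e (g (g' 1)) : G)⁻¹ * x := hg' zero_le_one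
  have h3 : (e (g (g' 1)) : G) ≤ e (g (g' 0)) := inv_le_inv_iff.1 (le_of_mul_le_mul_right' h2)
  have h4 : g (g' 0) = g (g' 1) := e.injective (Subtype.ext (le_antisymm h1 h3))
  have h5 : g' 0 < g' 1 := g'.strictMono zero_lt_one
  exact (g.strictMono h5).ne h4

variable (G K)

/-- Series with partially well ordered support. -/
@[ext]
structure MN where
  /-- the coefficients -/
  coeff : G → K
  pwo : (Function.support coeff).IsPWO

variable {G K}

namespace MN

instance : Zero (MN G K) := ⟨⟨0, by simp⟩⟩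
instance : Add (MN G K) :=
  ⟨fun f g => ⟨f.coeff + g.coeff, (f.pwo.union g.pwo).mono (Function.support_add _ _)⟩⟩
instance : Neg (MN G K) := ⟨fun f => ⟨-f.coeff, by rw [Function.support_neg]; exact f.pwo⟩⟩
instance : Sub (MN G K) :=
  ⟨fun f g => ⟨f.coeff - g.coeff, (f.pwo.union g.pwo).mono (Function.support_sub _ _)⟩⟩
instance {S : Type*} [SMulZeroClass S K] : SMul S (MN G K) :=
  ⟨fun c f => ⟨c • f.coeff, f.pwo.mono (Function.support_const_smul_subset _ _)⟩⟩

@[simp] theorem coeff_zero : (0 : MN G K).coeff = 0 := rfl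
@[simp] theorem coeff_add (f g : MN G K) : (f + g).coeff = f.coeff + g.coeff := rfl
@[simp] theorem coeff_neg (f : MN G K) : (-f).coeff = -f.coeff := rfl
@[simp] theorem coeff_sub (f g : MN G K) : (f - g).coeff = f.coeff - g.coeff := rfl
@[simp] theorem coeff_smul {S : Type*} [SMulZeroClass S K] (c : S) (f : MN G K) :
    (c • f).coeff = c • f.coeff := rfl

theorem coeff_injective : Function.Injective (coeff : MN G K → G → K) := fun _ _ h => MN.ext h

instance : AddCommGroup (MN G K) :=
  coeff_injective.addCommGroup _ rfl (fun _ _ => rfl) (fun _ => rfl) (fun _ _ => rfl)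
    (fun _ _ => rfl) (fun _ _ => rfl)

/-- `coeff` as an additive map. -/
def coeffHom : MN G K →+ (G → K) := ⟨⟨coeff, rfl⟩, fun _ _ => rfl⟩

instance : Module K (MN G K) := coeff_injective.module K coeffHom fun _ _ => rfl

/-- The series with one term. -/
noncomputable def single (g : G) (c : K) : MN G K :=
  ⟨fun x => if x = g then c else 0, (Set.finite_singleton g).isPWO.mono fun x hx => by
    by_contra h
    exact hx (if_neg h)⟩

theorem coeff_single (g : G) (c : K) (x : G) :
    (single g c).coeff x = if x = g then c else 0 := rfl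

noncomputable instance : One (MN G K) := ⟨single 1 1⟩

theorem one_def : (1 : MN G K) = single 1 1 := rfl

theorem mulTerm_finite (f g : MN G K) (x : G) :
    (Function.support fun a => f.coeff a * g.coeff (a⁻¹ * x)).Finite := by
  refine (finite_fiber f.pwo g.pwo x).subset fun a ha => ?_
  exact ⟨left_ne_zero_of_mul ha, right_ne_zero_of_mul ha⟩

noncomputable instance : Mul (MN G K) :=
  ⟨fun f g => ⟨fun x => ∑ᶠ a, f.coeff a * g.coeff (a⁻¹ * x),
    (isPWO_mul f.pwo g.pwo).mono fun x hx => by
      obtain ⟨a, ha⟩ := exists_ne_zero_of_finsum_mem_ne_zero (s := Set.univ)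
        (f := fun a => f.coeff a * g.coeff (a⁻¹ * x)) (by rwa [finsum_mem_univ]) |>
          fun ⟨a, _, ha⟩ => (⟨a, ha⟩ : ∃ a, f.coeff a * g.coeff (a⁻¹ * x) ≠ 0)
      exact ⟨a, left_ne_zero_of_mul ha, a⁻¹ * x, right_ne_zero_of_mul ha,
        mul_inv_cancel_left a x⟩⟩⟩

theorem coeff_mul (f g : MN G K) (x : G) :
    (f * g).coeff x = ∑ᶠ a, f.coeff a * g.coeff (a⁻¹ * x) := rfl

theorem coeff_mul_eq_sum (f g : MN G K) (x : G) (A : Finset G)
    (h : ∀ a, f.coeff a ≠ 0 → g.coeff (a⁻¹ * x) ≠ 0 → a ∈ A) :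
    (f * g).coeff x = ∑ a ∈ A, f.coeff a * g.coeff (a⁻¹ * x) :=
  finsum_eq_sum_of_support_subset _ fun a ha =>
    h a (left_ne_zero_of_mul ha) (right_ne_zero_of_mul ha)

theorem mul_assoc' (f g h : MN G K) : f * g * h = f * (g * h) := by
  ext x
  have hA := finite_fiber f.pwo (isPWO_mul g.pwo h.pwo) x
  have hC := finite_fiber (isPWO_mul f.pwo g.pwo) h.pwo x
  have hgh : ∀ y, (g * h).coeff y ≠ 0 → y ∈ Function.support g.coeff * Function.support h.coeff := by
    intro y hy
    rw [coeff_mul] at hy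
    by_contra hy'
    refine hy (finsum_eq_zero_of_forall_eq_zero fun a => ?_)
    by_contra ha
    exact hy' ⟨a, left_ne_zero_of_mul ha, a⁻¹ * y, right_ne_zero_of_mul ha,
      mul_inv_cancel_left a y⟩
  have hfg : ∀ y, (f * g).coeff y ≠ 0 → y ∈ Function.support f.coeff * Function.support g.coeff := by
    intro y hy
    rw [coeff_mul] at hy
    by_contra hy'
    refine hy (finsum_eq_zero_of_forall_eq_zero fun a => ?_)
    by_contra ha
    exact hy' ⟨a, left_ne_zero_of_mul ha, a⁻¹ * y, right_ne_zero_of_mul ha,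
      mul_inv_cancel_left a y⟩
  rw [coeff_mul_eq_sum (f * g) h x hC.toFinset fun c h1 h2 => hC.mem_toFinset.2 ⟨hfg c h1, h2⟩,
    coeff_mul_eq_sum f (g * h) x hA.toFinset fun a h1 h2 => hA.mem_toFinset.2 ⟨h1, hgh _ h2⟩]
  have e1 : ∀ c ∈ hC.toFinset, (f * g).coeff c * h.coeff (c⁻¹ * x)
      = ∑ a ∈ hA.toFinset, f.coeff a * g.coeff (a⁻¹ * c) * h.coeff (c⁻¹ * x) := by
    intro c _
    rw [← Finset.sum_mul]
    by_cases h0 : h.coeff (c⁻¹ * x) = 0
    · simp [h0]
    congr 1
    refine coeff_mul_eq_sum f g c _ fun a h1 h2 => hA.mem_toFinset.2 ⟨h1, a⁻¹ * c, h2,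
      c⁻¹ * x, h0, ?_⟩
    group
  have e2 : ∀ a ∈ hA.toFinset, f.coeff a * (g * h).coeff (a⁻¹ * x)
      = ∑ c ∈ hC.toFinset, f.coeff a * g.coeff (a⁻¹ * c) * h.coeff (c⁻¹ * x) := by
    intro a _
    simp_rw [mul_assoc (f.coeff a)]
    rw [← Finset.mul_sum]
    by_cases h0 : f.coeff a = 0
    · simp [h0]
    congr 1
    rw [coeff_mul, ← finsum_comp_equiv (Equiv.mulLeft a⁻¹)]
    have e : ∀ c, (a⁻¹ * c)⁻¹ * (a⁻¹ * x) = c⁻¹ * x := fun c => by group
    simp only [Equiv.coe_mulLeft, e]
    refine finsum_eq_sum_of_support_subset _ fun c hc => hC.mem_toFinset.2 ⟨?_, ?_⟩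
    · exact ⟨a, h0, a⁻¹ * c, left_ne_zero_of_mul hc, mul_inv_cancel_left a c⟩
    · exact right_ne_zero_of_mul hc
  rw [Finset.sum_congr rfl e1, Finset.sum_congr rfl e2, Finset.sum_comm]

theorem single_mul_coeff (g : G) (c : K) (f : MN G K) (x : G) :
    (single g c * f).coeff x = c * f.coeff (g⁻¹ * x) := by
  rw [coeff_mul_eq_sum _ _ _ {g} fun a h1 _ => by
    simp only [coeff_single, ne_eq, ite_eq_right_iff, not_forall] at h1
    simp [h1.1]]
  simp [coeff_single]

theorem mul_single_coeff (g : G) (c : K) (f : MN G K) (x : G) :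
    (f * single g c).coeff x = f.coeff (x * g⁻¹) * c := by
  rw [coeff_mul_eq_sum _ _ _ {x * g⁻¹} fun a _ h2 => by
    simp only [coeff_single, ne_eq, ite_eq_right_iff, not_forall] at h2
    simp [← h2.1]]
  simp [coeff_single]

noncomputable instance : Ring (MN G K) where
  __ := (inferInstance : AddCommGroup (MN G K))
  mul := (· * ·)
  one := 1
  mul_assoc := mul_assoc'
  one_mul f := by ext x; simp [one_def, single_mul_coeff]
  mul_one f := by ext x; simp [one_def, mul_single_coeff]
  zero_mul f := by ext x; simp [coeff_mul]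
  mul_zero f := by ext x; simp [coeff_mul]
  left_distrib f g h := by
    ext x
    simp only [coeff_mul, coeff_add, Pi.add_apply, mul_add]
    exact finsum_add_distrib (mulTerm_finite f g x) (mulTerm_finite f h x)
  right_distrib f g h := by
    ext x
    simp only [coeff_mul, coeff_add, Pi.add_apply, add_mul]
    exact finsum_add_distrib (mulTerm_finite f h x) (mulTerm_finite g h x)

noncomputable instance : Algebra K (MN G K) :=
  Algebra.ofModule
    (fun c f g => by
      ext x
      simp only [coeff_mul, coeff_smul, Pi.smul_apply, smul_eq_mul, mul_assoc]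
      rw [← mul_finsum _ c])
    (fun c f g => by
      ext x
      simp only [coeff_mul, coeff_smul, Pi.smul_apply, smul_eq_mul, mul_left_comm _ c]
      rw [← mul_finsum _ c])

theorem algebraMap_eq (c : K) : algebraMap K (MN G K) c = single 1 c := by
  rw [Algebra.algebraMap_eq_smul_one]
  ext x
  simp [one_def, coeff_single]

theorem single_mul_single (a b : G) (c d : K) : single a c * single b d = single (a * b) (c * d) := by
  ext x
  simp only [single_mul_coeff, coeff_single, inv_mul_eq_iff_eq_mul, mul_ite, mul_zero]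

/-- Group elements as series. -/
noncomputable def ofGroup : G →* MN G K where
  toFun g := single g 1
  map_one' := rfl
  map_mul' a b := by simp [single_mul_single]

theorem ofGroup_apply (g : G) : (ofGroup g : MN G K) = single g 1 := rfl

/-! ### Inverses -/

theorem exists_inv_one_sub (h : MN G K) (hpos : ∀ x, h.coeff x ≠ 0 → 1 < x) :
    ∃ g, (1 - h) * g = 1 := by
  classical
  set S : Set G := (Submonoid.closure (Function.support h.coeff) : Set G) with hS
  have hSp : S.IsPWO := isPWO_closure h.pwo fun x hx => (hpos x hx).le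
  let r : G → G → Prop := fun a b => a < b ∧ a ∈ S ∧ b ∈ S
  have hwf : WellFounded r := by
    rw [wellFounded_iff_isEmpty_descending_chain]
    refine ⟨fun ⟨f, hf⟩ => ?_⟩
    exact (Set.isWF_iff_no_descending_seq.1 hSp.isWF) f
      (strictAnti_nat_of_succ_lt fun n => (hf n).1) fun n => (hf n).2.2
  let step : (x : G) → ((y : G) → r y x → K) → K := fun x rec =>
    (if x = 1 then 1 else 0) + ∑ᶠ a, if hh : h.coeff a ≠ 0 ∧ a⁻¹ * x ∈ S ∧ x ∈ S then
      h.coeff a * rec (a⁻¹ * x)
        ⟨mul_lt_of_lt_one_left' (a := x) (inv_lt_one'.2 (hpos a hh.1)), hh.2.1, hh.2.2⟩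
      else 0
  let g : G → K := hwf.fix step
  have hg : ∀ x, g x = step x fun y _ => g y := fun x => hwf.fix_eq step x
  have hout : ∀ x, x ∉ S → g x = 0 := by
    intro x hx
    rw [hg]
    have hx1 : x ≠ 1 := fun e => hx (e ▸ Submonoid.one_mem _)
    simp only [step, if_neg hx1, zero_add]
    exact finsum_eq_zero_of_forall_eq_zero fun a => dif_neg fun hh => hx hh.2.2
  have hsupp : Function.support g ⊆ S := fun x hx => by
    by_contra h'
    exact hx (hout x h')
  refine ⟨⟨g, hSp.mono hsupp⟩, ?_⟩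
  rw [sub_mul, one_mul, sub_eq_iff_eq_add]
  ext x
  rw [coeff_add, Pi.add_apply, coeff_mul, one_def, coeff_single]
  show g x = _
  rw [hg]
  simp only [step]
  congr 1
  refine finsum_congr fun a => ?_
  by_cases ha : h.coeff a = 0
  · simp [ha]
  by_cases hax : a⁻¹ * x ∈ S
  · have hx : x ∈ S := by
      have := Submonoid.mul_mem (Submonoid.closure (Function.support h.coeff))
        (Submonoid.subset_closure ha) hax
      rw [mul_inv_cancel_left] at this
      exact this
    rw [dif_pos ⟨ha, hax, hx⟩]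
  · rw [dif_neg fun hh => hax hh.2.1, hout _ hax, mul_zero]

theorem exists_right_inv {f : MN G K} (hf : f ≠ 0) : ∃ g, f * g = 1 := by
  have hne : (Function.support f.coeff).Nonempty := by
    by_contra h
    rw [Set.not_nonempty_iff_eq_empty, Function.support_eq_empty_iff] at h
    exact hf (MN.ext h)
  set m := f.pwo.isWF.min hne with hm
  have hcm : f.coeff m ≠ 0 := f.pwo.isWF.min_mem hne
  set u : MN G K := single m⁻¹ (f.coeff m)⁻¹ with hu
  have hpos : ∀ x, (1 - u * f).coeff x ≠ 0 → 1 < x := by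
    intro x hx
    rw [coeff_sub, Pi.sub_apply, one_def, coeff_single, hu, single_mul_coeff, inv_inv] at hx
    rcases lt_trichotomy x 1 with h1 | h1 | h1
    · have : f.coeff (m * x) = 0 := by
        by_contra h2
        exact f.pwo.isWF.not_lt_min hne h2 (mul_lt_of_lt_one_right' (a := m) h1)
      simp [this, h1.ne] at hx
    · simp [h1, hcm] at hx
    · exact h1
  obtain ⟨g, hg⟩ := exists_inv_one_sub (1 - u * f) hpos
  rw [sub_sub_cancel] at hg
  refine ⟨g * u, ?_⟩
  have hu' : single m (f.coeff m) * u = 1 := by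
    rw [hu, single_mul_single, mul_inv_cancel, mul_inv_cancel₀ hcm, one_def]
  calc f * (g * u) = single m (f.coeff m) * u * f * (g * u) := by rw [hu', one_mul]
    _ = single m (f.coeff m) * ((u * f * g) * u) := by simp only [mul_assoc]
    _ = 1 := by rw [hg, one_mul, hu']

theorem zero_ne_one' : (0 : MN G K) ≠ 1 := fun h => by
  simpa [one_def, coeff_single] using congrArg (fun f => f.coeff 1) h

theorem isUnit_or_eq_zero (f : MN G K) : IsUnit f ∨ f = 0 := by
  by_cases hf : f = 0
  · exact Or.inr hf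
  obtain ⟨g, hg⟩ := exists_right_inv hf
  have hg0 : g ≠ 0 := by rintro rfl; rw [mul_zero] at hg; exact zero_ne_one' hg
  obtain ⟨k, hk⟩ := exists_right_inv hg0
  have : k = f := by
    calc k = f * g * k := by rw [hg, one_mul]
      _ = f := by rw [mul_assoc, hk, mul_one]
  exact Or.inl ⟨⟨f, g, hg, this ▸ hk⟩, rfl⟩

instance : Nontrivial (MN G K) := ⟨⟨0, 1, zero_ne_one'⟩⟩

noncomputable instance : DivisionRing (MN G K) :=
  DivisionRing.ofIsUnitOrEqZero isUnit_or_eq_zero

end MN

end Vale.Agent.P201
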