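import Vale.Agent.P201.Transfer

/-!
From linear equations to matrices over the group algebra of a free group.
-/

namespace Vale.Agent.P201

set_option linter.unusedSectionVars false

open FreeGroup (of toWord mk_toWord toWord_injective one_eq_mk)

variable {ι : Type*} {G : ι → Type*} [∀ i, Group (G i)] [∀ i, LinearOrder (G i)]
  [∀ i, MulLeftMono (G i)] [∀ i, MulRightMono (G i)] {K : Type*} [Field K] {α : Type*}
  (φ : ∀ i, FreeGroup α →* G i)

/-- A matrix over the group algebra that kills a nonzero vector in one series field kills a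
nonzero vector in all of them. -/
theorem transfer_matrix (hφ : ∀ i, Function.Injective (φ i)) (i j : ι) {R J : Type*} [Fintype R]
    [Fintype J] (M : R → J → MonoidAlgebra K (FreeGroup α)) (v : J → MN (G i) K) (hv : v ≠ 0)
    (hM : ∀ r, ∑ k, theta φ i (M r k) * v k = 0) :
    ∃ v' : J → MN (G j) K, v' ≠ 0 ∧ ∀ r, ∑ k, theta φ j (M r k) * v' k = 0 := by
  classical
  set supp : Finset (FreeGroup α) := Finset.univ.biUnion fun r =>
    Finset.univ.biUnion fun k => (M r k).coeff.support with hsupp
  set W : Finset (List (α × Bool)) :=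
    insert [] (supp.biUnion fun g => g.toWord.tails.toFinset) with hW
  have hWcl : ∀ p s, p :: s ∈ W → s ∈ W := by
    intro p s h
    simp only [hW, Finset.mem_insert, reduceCtorEq, Finset.mem_biUnion, List.mem_toFinset,
      List.mem_tails, false_or] at h ⊢
    obtain ⟨g, hg, hs⟩ := h
    exact Or.inr ⟨g, hg, (List.suffix_cons p s).trans hs⟩
  have hnil : ([] : List (α × Bool)) ∈ W := Finset.mem_insert_self _ _
  have hsW : ∀ r k, ∀ g ∈ (M r k).coeff.support, g.toWord ∈ W := fun r k g hg => by
    refine Finset.mem_insert_of_mem (Finset.mem_biUnion.2 ⟨g, ?_, ?_⟩)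
    · exact Finset.mem_biUnion.2 ⟨r, Finset.mem_univ _, Finset.mem_biUnion.2
        ⟨k, Finset.mem_univ _, hg⟩⟩
    · simp
  set S : Finset α := W.biUnion fun w => (w.map Prod.fst).toFinset with hS
  have hxS : ∀ {x : α} {b : Bool} {s}, (x, b) :: s ∈ W → x ∈ S := fun {x b s} h =>
    Finset.mem_biUnion.2 ⟨_, h, by simp⟩
  -- the equations
  let J' := W × J
  let eRow : R → Option S → J' → K := fun r o p =>
    if o = none ∧ (FreeGroup.mk (p.1 : List (α × Bool))).toWord = (p.1 : List (α × Bool))
      then (M r p.2).coeff (FreeGroup.mk (p.1 : List (α × Bool))) else 0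
  let linkEq : (x : S) → Bool → W → W → J → Option S → J' → K := fun x b top low k o p =>
    match b with
    | true => (if o = some x ∧ p = (low, k) then 1 else 0) - (if o = none ∧ p = (top, k) then 1 else 0)
    | false => (if o = some x ∧ p = (top, k) then 1 else 0) - (if o = none ∧ p = (low, k) then 1 else 0)
  let E : Set (Option S → J' → K) := Set.range eRow ∪ {e | ∃ (x : S) (b : Bool) (top low : W) (k : J),
    (top : List (α × Bool)) = ((x : α), b) :: (low : List (α × Bool)) ∧ e = linkEq x b top low k}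
  have hlink : ∀ (i' : ι) (z : J' → MN (G i') K) (x : S) (b : Bool) (top low : W) (k : J),
      evalEq φ S i' (linkEq x b top low k) z = match b with
        | true => MN.ofGroup (φ i' (of (x : α))) * z (low, k) - z (top, k)
        | false => MN.ofGroup (φ i' (of (x : α))) * z (top, k) - z (low, k) := by
    intro i' z x b top low k
    have h1 : ∀ (o₀ : Option S) (p₀ : J'), ∑ o, gen φ S i' o * ∑ p, (if o = o₀ ∧ p = p₀ then (1 : K) else 0) • z p
        = gen φ S i' o₀ * z p₀ := by
      intro o₀ p₀
      rw [Finset.sum_eq_single o₀]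
      · rw [Finset.sum_eq_single p₀] <;> simp +contextual
      · intro o _ ho; simp [ho]
      · simp
    cases b <;>
    · simp only [evalEq, linkEq, sub_smul, Finset.sum_sub_distrib, mul_sub, h1]
      simp [gen]
  have hrow : ∀ (i' : ι) (z : J' → MN (G i') K) (u : J → MN (G i') K),
      (∀ p : J', z p = MN.ofGroup (φ i' (FreeGroup.mk (p.1 : List (α × Bool)))) * u p.2) →
      ∀ r, evalEq φ S i' (eRow r) z = ∑ k, theta φ i' (M r k) * u k := by
    intro i' z u hz r
    rw [evalEq, Finset.sum_eq_single none]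
    · simp only [gen, one_mul, eRow, true_and]
      rw [Fintype.sum_prod_type, Finset.sum_comm]
      refine Finset.sum_congr rfl fun k _ => ?_
      rw [theta_eq_sum, Finset.sum_mul]
      refine (Finset.sum_bij_ne_zero (fun g hg _ => (⟨g.toWord, hsW r k g hg⟩ : W))
        (fun g hg _ => Finset.mem_univ _) ?_ ?_ ?_).symm
      · intro g₁ _ _ g₂ _ _ h
        exact toWord_injective (congrArg Subtype.val h)
      · intro s _ hs
        by_cases hred : (FreeGroup.mk (s : List (α × Bool))).toWord = (s : List (α × Bool))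
        · rw [if_pos hred] at hs
          have hc : (M r k).coeff (FreeGroup.mk (s : List (α × Bool))) ≠ 0 := fun h => hs (by rw [h, zero_smul])
          refine ⟨FreeGroup.mk (s : List (α × Bool)), Finsupp.mem_support_iff.2 hc, ?_, Subtype.ext hred⟩
          rw [hz] at hs
          rw [mul_assoc, ← Algebra.smul_def]
          exact hs
        · rw [if_neg hred, zero_smul] at hs
          exact absurd rfl hs
      · intro g hg _
        simp only [mk_toWord, if_true, hz, Algebra.smul_def, mul_assoc]
    · intro o _ ho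
      simp [eRow, ho]
    · simp
  let z : J' → MN (G i) K := fun p => MN.ofGroup (φ i (FreeGroup.mk (p.1 : List (α × Bool)))) * v p.2
  have hz0 : z ≠ 0 := by
    obtain ⟨k, hk⟩ := Function.ne_iff.1 hv
    refine Function.ne_iff.2 ⟨(⟨[], hnil⟩, k), ?_⟩
    simp only [z, ← one_eq_mk, map_one, one_mul]
    exact hk
  have hzE : ∀ e ∈ E, evalEq φ S i e z = 0 := by
    rintro e (⟨r, rfl⟩ | ⟨x, b, top, low, k, htop, rfl⟩)
    · rw [hrow i z v (fun p => rfl) r]; exact hM r
    · rw [hlink]
      cases b
      · show MN.ofGroup _ * z (top, k) - z (low, k) = 0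
        simp only [z, htop]
        rw [← mul_assoc, ← map_mul, ← map_mul,
          show FreeGroup.mk (((x : α), false) :: (low : List (α × Bool)))
            = (of (x : α))⁻¹ * FreeGroup.mk (low : List (α × Bool)) from rfl,
          mul_inv_cancel_left, sub_self]
      · show MN.ofGroup _ * z (low, k) - z (top, k) = 0
        simp only [z, htop]
        rw [← mul_assoc, ← map_mul, ← map_mul,
          show FreeGroup.mk (((x : α), true) :: (low : List (α × Bool)))
            = of (x : α) * FreeGroup.mk (low : List (α × Bool)) from rfl, sub_self]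
  obtain ⟨z', hz'0, hz'E⟩ := transfer_equations φ hφ i j S E z hz0 hzE
  let u : J → MN (G j) K := fun k => z' (⟨[], hnil⟩, k)
  have hz' : ∀ p : J', z' p = MN.ofGroup (φ j (FreeGroup.mk (p.1 : List (α × Bool)))) * u p.2 := by
    suffices ∀ (w : List (α × Bool)) (hw : w ∈ W) (k : J),
        z' (⟨w, hw⟩, k) = MN.ofGroup (φ j (FreeGroup.mk w)) * u k from fun p => this p.1 p.1.2 p.2
    intro w
    induction w with
    | nil => intro hw k; simp [u, ← one_eq_mk]
    | cons a s ih =>
      intro hw k
      obtain ⟨x, b⟩ := a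
      have h := hz'E (linkEq ⟨x, hxS hw⟩ b ⟨_, hw⟩ ⟨s, hWcl _ _ hw⟩ k)
        (Or.inr ⟨⟨x, hxS hw⟩, b, ⟨_, hw⟩, ⟨s, hWcl _ _ hw⟩, k, rfl, rfl⟩)
      rw [hlink] at h
      cases b
      · have h' : MN.ofGroup (φ j (of x)) * z' (⟨(x, false) :: s, hw⟩, k) = z' (⟨s, hWcl _ _ hw⟩, k) :=
          sub_eq_zero.1 h
        rw [show FreeGroup.mk ((x, false) :: s) = (of x)⁻¹ * FreeGroup.mk s from rfl, map_mul, map_mul,
          mul_assoc, ← ih (hWcl _ _ hw) k, ← h', ← mul_assoc, ← map_mul, map_inv, inv_mul_cancel,
          map_one, one_mul]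
      · have h' : MN.ofGroup (φ j (of x)) * z' (⟨s, hWcl _ _ hw⟩, k) = z' (⟨(x, true) :: s, hw⟩, k) :=
          sub_eq_zero.1 h
        rw [show FreeGroup.mk ((x, true) :: s) = of x * FreeGroup.mk s from rfl, map_mul, map_mul,
          mul_assoc, ← ih (hWcl _ _ hw) k, h']
  refine ⟨u, fun h0 => hz'0 ?_, fun r => ?_⟩
  · funext p
    rw [hz' p]
    simp [h0]
  · rw [← hrow j z' u hz' r]
    exact hz'E _ (Or.inl ⟨r, rfl⟩)

theorem transfers_free (hφ : ∀ i, Function.Injective (φ i)) : Transfers K φ :=
  fun i j _ _ _ _ M v => transfer_matrix φ hφ i j M v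

end Vale.Agent.P201
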