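import Vale.Agent.P201.Amalgam
import Mathlib.Algebra.Group.Pointwise.Finset.Basic
import Mathlib.Algebra.MonoidAlgebra.Support

/-!
Common subgroups that are abelian, or whose finite subsets grow subexponentially: their group
algebras are Ore domains, so singular matrices pass between the series fields.
-/

namespace Vale.Agent.P201

open scoped Pointwise

/-- The right Ore condition. -/
def HasCommonMultiples (R : Type*) [Ring R] : Prop :=
  ∀ a b : R, a ≠ 0 → b ≠ 0 → ∃ p q : R, q ≠ 0 ∧ a * p = b * q

/-- Products of `a` and `b` along a word. -/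
def wordProd {R : Type*} [Monoid R] (a b : R) : ∀ {n : ℕ}, (Fin n → Bool) → R
  | 0, _ => 1
  | _ + 1, w => cond (w 0) a b * wordProd a b (fun k => w k.succ)

theorem wordProd_cons {R : Type*} [Monoid R] (a b : R) {n : ℕ} (c : Bool) (w : Fin n → Bool) :
    wordProd a b (Fin.cons c w) = cond c a b * wordProd a b w := by
  simp [wordProd]

/-- Jategaonkar: in a domain without common multiples, `a` and `b` generate a free algebra. -/
theorem wordProd_linearIndependent {K R : Type*} [Field K] [Ring R] [Algebra K R]
    [NoZeroDivisors R] [Nontrivial R] {a b : R} (ha : a ≠ 0)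
    (hab : ∀ p q : R, a * p = b * q → q = 0) :
    ∀ (n : ℕ) (c : (Fin n → Bool) → K), ∑ w, c w • wordProd a b w = 0 → c = 0 := by
  intro n
  induction n with
  | zero =>
    intro c h
    funext w
    have hw : w = default := Subsingleton.elim _ _
    rw [Fintype.sum_subsingleton _ w] at h
    simpa [wordProd] using h
  | succ n ih =>
    intro c h
    rw [← (Fin.consEquiv fun _ : Fin (n + 1) => Bool).sum_comp, Fintype.sum_prod_type,
      Fintype.sum_bool] at h
    replace h : ∑ y, c (Fin.cons true y) • wordProd a b (Fin.cons true y : Fin (n + 1) → Bool)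
        + ∑ y, c (Fin.cons false y) • wordProd a b (Fin.cons false y : Fin (n + 1) → Bool) = 0 := h
    simp only [wordProd_cons, cond_true, cond_false, ← mul_smul_comm,
      ← Finset.mul_sum] at h
    have hq := hab (-(∑ w, c (Fin.cons true w) • wordProd a b w))
      (∑ w, c (Fin.cons false w) • wordProd a b w) (by
        rw [mul_neg]; exact neg_eq_of_add_eq_zero_right h)
    have hp : ∑ w, c (Fin.cons true w) • wordProd a b w = 0 := by
      rw [hq, mul_zero, add_zero] at h
      exact (mul_eq_zero.1 h).resolve_left ha
    funext w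
    have e := Fin.cons_self_tail w
    cases h0 : w 0
    · rw [h0] at e; rw [← e]; exact congrFun (ih _ hq) _
    · rw [h0] at e; rw [← e]; exact congrFun (ih _ hp) _

theorem wordProd_support {K H : Type*} [Field K] [Group H] [DecidableEq H] {S : Finset H}
    {a b : MonoidAlgebra K H} (ha : a.coeff.support ⊆ S) (hb : b.coeff.support ⊆ S) :
    ∀ {n : ℕ} (w : Fin n → Bool), (wordProd a b w).coeff.support ⊆ S ^ n := by
  intro n
  induction n with
  | zero =>
    intro w g hg
    simp only [wordProd, MonoidAlgebra.one_def, MonoidAlgebra.coeff_single] at hg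
    simpa using Finsupp.support_single_subset hg
  | succ n ih =>
    intro w
    show (cond (w 0) a b * wordProd a b fun k => w k.succ).coeff.support ⊆ _
    refine (MonoidAlgebra.support_coeff_mul_subset _ _).trans ?_
    rw [pow_succ']
    refine Finset.mul_subset_mul ?_ (ih _)
    cases w 0 <;> simp only [cond_true, cond_false] <;> assumption

/-- The edge groups allowed here. -/
def SmallGrowth (H : Type*) [Group H] [DecidableEq H] : Prop :=
  (∀ a b : H, a * b = b * a) ∨ ∀ S : Finset H, ∃ n : ℕ, (S ^ n).card < 2 ^ n

theorem hasCommonMultiples_of_smallGrowth {K H : Type*} [Field K] [Group H] [DecidableEq H]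
    [NoZeroDivisors (MonoidAlgebra K H)] (hH : SmallGrowth H) :
    HasCommonMultiples (MonoidAlgebra K H) := by
  classical
  intro a b ha hb
  rcases hH with hc | hg
  · refine ⟨b, a, ha, ?_⟩
    letI : CommGroup H := { ‹Group H› with mul_comm := hc }
    exact mul_comm a b
  by_contra hcon
  push Not at hcon
  have hab : ∀ p q, a * p = b * q → q = 0 := fun p q h => by
    by_contra hq
    exact hcon p q hq h
  set S := a.coeff.support ∪ b.coeff.support
  obtain ⟨n, hn⟩ := hg S
  let F : ((Fin n → Bool) → K) →ₗ[K] (↥(S ^ n) → K) :=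
    { toFun := fun c g => (∑ w, c w • wordProd a b w).coeff g
      map_add' := fun c d => by
        funext g
        simp [add_smul, Finset.sum_add_distrib]
      map_smul' := fun r c => by
        funext g
        simp [mul_smul, Finset.mul_sum, ← Finset.smul_sum] }
  have hF : Function.Injective F := by
    rw [injective_iff_map_eq_zero]
    intro c hc
    refine wordProd_linearIndependent ha hab n c ?_
    apply MonoidAlgebra.coeff_injective
    ext g
    by_cases hgS : g ∈ S ^ n
    · exact congrFun hc ⟨g, hgS⟩
    · simp only [MonoidAlgebra.coeff_sum, Finsupp.finsetSum_apply, MonoidAlgebra.coeff_smul,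
        Finsupp.smul_apply, MonoidAlgebra.coeff_zero, Finsupp.zero_apply]
      refine Finset.sum_eq_zero fun w _ => ?_
      rw [Finsupp.notMem_support_iff.1 fun h => hgS (wordProd_support Finset.subset_union_left
        Finset.subset_union_right w h), smul_zero]
  have := LinearMap.finrank_le_finrank_of_injective hF
  simp only [Module.finrank_pi, Fintype.card_pi, Fintype.card_bool, Finset.prod_const,
    Finset.card_univ, Fintype.card_fin, Fintype.card_coe] at this
  omega

/-- Column elimination over a domain with common multiples. -/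
theorem transfer_of_commonMultiples {R E F : Type*} [Ring R] [DivisionRing E] [DivisionRing F]
    (f : R →+* E) (g : R →+* F) (hf : Function.Injective f) (hg : Function.Injective g)
    (hR : HasCommonMultiples R) {I : Type} :
    ∀ (s : ℕ) (J : Type) [Fintype J], Fintype.card J = s → ∀ (M : I → J → R) (v : J → E), v ≠ 0 →
      (∀ r, ∑ k, f (M r k) * v k = 0) → ∃ v' : J → F, v' ≠ 0 ∧ ∀ r, ∑ k, g (M r k) * v' k = 0 := by
  classical
  intro s
  induction s with
  | zero =>
    intro J _ hJ M v hv _
    haveI := Fintype.card_eq_zero_iff.1 hJ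
    exact absurd (Subsingleton.elim v 0) hv
  | succ s ih =>
    intro J _ hJ M v hv hM
    by_cases hz : ∀ r k, M r k = 0
    · obtain ⟨k, _⟩ := Function.ne_iff.1 hv
      refine ⟨fun _ => 1, Function.ne_iff.2 ⟨k, one_ne_zero⟩, fun r => ?_⟩
      simp [hz r]
    push Not at hz
    obtain ⟨r, k₀, hk₀⟩ := hz
    have hpq : ∀ k, ∃ p q : R, q ≠ 0 ∧ M r k₀ * p = M r k * q := by
      intro k
      by_cases h : M r k = 0
      · exact ⟨0, 1, fun h1 => hk₀ (by rw [← mul_one (M r k₀), h1, mul_zero]), by simp [h]⟩
      · exact hR _ _ hk₀ h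
    choose p q hq0 hpq using hpq
    let J' := {k : J // k ≠ k₀}
    have hJ' : Fintype.card J' = s := by
      rw [Fintype.card_subtype_compl, hJ]; simp
    let w : J' → E := fun k => (f (q k))⁻¹ * v k
    have hwv : ∀ k : J', f (q k) * w k = v k := fun k =>
      mul_inv_cancel_left₀ (fun h => hq0 k (hf (h.trans (map_zero f).symm))) _
    have h0 : v k₀ = -∑ k : J', f (p k) * w k := by
      have h := hM r
      rw [Fintype.sum_eq_add_sum_subtype_ne _ k₀] at h
      have h' : f (M r k₀) * (v k₀ + ∑ k : J', f (p k) * w k) = 0 := by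
        rw [mul_add, Finset.mul_sum, ← h]
        congr 1
        refine Finset.sum_congr rfl fun k _ => ?_
        rw [← mul_assoc, ← map_mul, hpq, map_mul, mul_assoc, hwv]
      exact eq_neg_of_add_eq_zero_left
        ((mul_eq_zero.1 h').resolve_left fun h => hk₀ (hf (h.trans (map_zero f).symm)))
    obtain ⟨w', hw', hM'⟩ := ih J' hJ'
      (fun r' k => M r' k.1 * q k - M r' k₀ * p k) w
      (fun hw => hv (funext fun k => by
        by_cases h : k = k₀
        · subst h; simp [h0, hw]
        · rw [← hwv ⟨k, h⟩, hw]; simp))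
      (fun r' => by
        have h := hM r'
        rw [Fintype.sum_eq_add_sum_subtype_ne _ k₀, h0] at h
        rw [← h]
        simp only [map_sub, map_mul, sub_mul, mul_assoc, hwv, Finset.sum_sub_distrib, mul_neg,
          Finset.mul_sum]
        abel)
    refine ⟨fun k => if h : k = k₀ then -∑ l : J', g (p l) * w' l else g (q k) * w' ⟨k, h⟩,
      fun h => hw' (funext fun k => ?_), fun r' => ?_⟩
    · have := congrFun h k.1
      rw [dif_neg k.2] at this
      exact (mul_eq_zero.1 this).resolve_left fun e => hq0 k (hg (e.trans (map_zero g).symm))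
    · rw [Fintype.sum_eq_add_sum_subtype_ne _ k₀, ← hM' r']
      have e : ∀ k : J', (if h : k.1 = k₀ then -∑ l : J', g (p l) * w' l
          else g (q k.1) * w' ⟨k.1, h⟩) = g (q k.1) * w' k := fun k => dif_neg k.2
      simp only [dif_pos, e]
      simp only [map_sub, map_mul, sub_mul, mul_assoc, Finset.sum_sub_distrib, mul_neg,
        Finset.mul_sum]
      abel

theorem nice_pushout_smallGrowth {K : Type*} [Field K] {ι : Type*} [Nonempty ι]
    {G : ι → Type*} [∀ i, Group (G i)] [∀ i, LinearOrder (G i)] [∀ i, MulLeftMono (G i)]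
    [∀ i, MulRightMono (G i)] {H : Type*} [Group H] [DecidableEq H] (hH : SmallGrowth H)
    (φ : ∀ i, H →* G i) (hφ : ∀ i, Function.Injective (φ i)) :
    Nice (MonoidAlgebra K (Monoid.PushoutI φ)) := by
  obtain ⟨i₀⟩ := ‹Nonempty ι›
  haveI : NoZeroDivisors (MonoidAlgebra K H) :=
    Function.Injective.noZeroDivisors (theta (K := K) φ i₀) (theta_injective φ (hφ i₀))
      (map_zero _) (map_mul _)
  refine nice_pushout_of_transfers φ hφ fun i j R J _ _ M v => ?_
  exact transfer_of_commonMultiples (theta φ i) (theta φ j) (theta_injective φ (hφ i))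
    (theta_injective φ (hφ j)) (hasCommonMultiples_of_smallGrowth hH) _ J rfl M v

theorem noZeroDivisors_pushout_smallGrowth {K : Type*} [Field K] {ι : Type*} [Nonempty ι]
    {G : ι → Type*} [∀ i, Group (G i)] [∀ i, LinearOrder (G i)] [∀ i, MulLeftMono (G i)]
    [∀ i, MulRightMono (G i)] {H : Type*} [Group H] [DecidableEq H] (hH : SmallGrowth H)
    (φ : ∀ i, H →* G i) (hφ : ∀ i, Function.Injective (φ i)) :
    NoZeroDivisors (MonoidAlgebra K (Monoid.PushoutI φ)) :=
  (nice_pushout_smallGrowth hH φ hφ).1

end Vale.Agent.P201
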