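import Vale.Agent.P201.Matrices

/-!
The common division ring of a group inside all the series fields.
-/

namespace Vale.Agent.P201

set_option linter.unusedSectionVars false

variable {ι : Type*} {G : ι → Type*} [∀ i, Group (G i)] [∀ i, LinearOrder (G i)]
  [∀ i, MulLeftMono (G i)] [∀ i, MulRightMono (G i)] {K : Type*} [Field K] {H : Type*} [Group H]
  (φ : ∀ i, H →* G i)

/-- `x` is a coordinate of the solution of a system that is regular in every field. -/
def Rep (x : ∀ i, MN (G i) K) : Prop :=
  ∃ (n : Type) (_ : Fintype n) (M : n → n → MonoidAlgebra K H)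
    (u w : n → MonoidAlgebra K H) (v : ∀ i, n → MN (G i) K),
    (∀ i, ∀ y : n → MN (G i) K, (∀ r, ∑ k, theta φ i (M r k) * y k = 0) → y = 0) ∧
    (∀ i r, ∑ k, theta φ i (M r k) * v i k = theta φ i (w r)) ∧
    ∀ i, x i = ∑ k, theta φ i (u k) * v i k

theorem rep_theta (p : MonoidAlgebra K H) :
    Rep φ fun i => theta (K := K) φ i p := by
  refine ⟨Unit, inferInstance, fun _ _ => 1, fun _ => 1, fun _ => p, fun i _ => theta φ i p,
    fun i y hy => ?_, fun i r => by simp, fun i => by simp⟩
  funext k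
  simpa using hy k

variable {φ}

theorem Rep.neg {x : ∀ i, MN (G i) K} (hx : Rep φ x) : Rep φ (-x) := by
  obtain ⟨n, hn, M, u, w, v, hM, hv, hx⟩ := hx
  exact ⟨n, hn, M, -u, w, v, hM, hv, fun i => by simp [hx i]⟩

theorem Rep.add {x y : ∀ i, MN (G i) K} (hx : Rep φ x) (hy : Rep φ y) : Rep φ (x + y) := by
  obtain ⟨n, hn, M, u, w, v, hM, hv, hx⟩ := hx
  obtain ⟨m, hm, N, a, b, c, hN, hc, hy⟩ := hy
  refine ⟨n ⊕ m, inferInstance, Sum.elim (fun r => Sum.elim (M r) 0) (fun r => Sum.elim 0 (N r)),
    Sum.elim u a, Sum.elim w b, fun i => Sum.elim (v i) (c i), fun i z hz => ?_, fun i r => ?_,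
    fun i => ?_⟩
  · have h1 := hM i (fun k => z (Sum.inl k)) fun r => by
      simpa [Fintype.sum_sum_type] using hz (Sum.inl r)
    have h2 := hN i (fun k => z (Sum.inr k)) fun r => by
      simpa [Fintype.sum_sum_type] using hz (Sum.inr r)
    funext k
    cases k with
    | inl k => exact congrFun h1 k
    | inr k => exact congrFun h2 k
  · cases r with
    | inl r => simpa [Fintype.sum_sum_type] using hv i r
    | inr r => simpa [Fintype.sum_sum_type] using hc i r
  · simp [Fintype.sum_sum_type, hx i, hy i]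

theorem Rep.mul {x y : ∀ i, MN (G i) K} (hx : Rep φ x) (hy : Rep φ y) : Rep φ (x * y) := by
  obtain ⟨n, hn, M, u, w, v, hM, hv, hx⟩ := hx
  obtain ⟨m, hm, N, a, b, c, hN, hc, hy⟩ := hy
  refine ⟨n ⊕ m, inferInstance,
    Sum.elim (fun r => Sum.elim (M r) fun k => -(w r * a k)) (fun r => Sum.elim 0 (N r)),
    Sum.elim u 0, Sum.elim 0 b, fun i => Sum.elim (fun k => v i k * y i) (c i),
    fun i z hz => ?_, fun i r => ?_, fun i => ?_⟩
  · have h2 : (fun k => z (Sum.inr k)) = 0 := hN i _ fun r => by
      simpa [Fintype.sum_sum_type] using hz (Sum.inr r)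
    have h2' : ∀ k, z (Sum.inr k) = 0 := fun k => congrFun h2 k
    have h1 := hM i (fun k => z (Sum.inl k)) fun r => by
      simpa [Fintype.sum_sum_type, h2'] using hz (Sum.inl r)
    funext k
    cases k with
    | inl k => exact congrFun h1 k
    | inr k => exact h2' k
  · cases r with
    | inl r =>
      simp only [Fintype.sum_sum_type, Sum.elim_inl, Sum.elim_inr, map_neg, map_mul, neg_mul,
        mul_assoc, Finset.sum_neg_distrib, ← Finset.mul_sum, ← hy i, Pi.zero_apply, map_zero]
      simp only [← mul_assoc, ← Finset.sum_mul, hv i r]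
      exact add_neg_cancel _
    | inr r => simpa [Fintype.sum_sum_type] using hc i r
  · simp [Fintype.sum_sum_type, hx i, ← mul_assoc, ← Finset.sum_mul]

/-- Vanishing in one field implies vanishing in all of them. -/
theorem Rep.eq_zero (hT : Transfers K φ) {x : ∀ i, MN (G i) K} (hx : Rep φ x)
    {i : ι} (hi : x i = 0) : x = 0 := by
  obtain ⟨n, hn, M, u, w, v, hM, hv, hx⟩ := hx
  funext j
  obtain ⟨z, hz0, hz⟩ := hT i j _ _
    (Sum.elim (fun r => Sum.elim (M r) fun _ : Unit => -(w r)) (fun _ : Unit => Sum.elim u 0))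
    (Sum.elim (v i) fun _ => 1)
    (Function.ne_iff.2 ⟨Sum.inr (), by simp⟩)
    (by
      intro r
      cases r with
      | inl r => simp [Fintype.sum_sum_type, hv i r]
      | inr r => simpa [Fintype.sum_sum_type, hx i] using hi)
  have h1 : ∀ r, ∑ k, theta φ j (M r k) * (z (Sum.inl k) - v j k * z (Sum.inr ())) = 0 := by
    intro r
    have := hz (Sum.inl r)
    simp only [Fintype.sum_sum_type, Sum.elim_inl, Sum.elim_inr, map_neg, neg_mul,
      Finset.univ_unique, Finset.sum_singleton] at this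
    simp only [mul_sub, ← mul_assoc, Finset.sum_sub_distrib, ← Finset.sum_mul, hv j r]
    rw [sub_eq_add_neg]
    exact this
  have h2 : ∀ k, z (Sum.inl k) = v j k * z (Sum.inr ()) := fun k =>
    sub_eq_zero.1 (congrFun (hM j _ h1) k)
  have h3 : x j * z (Sum.inr ()) = 0 := by
    have := hz (Sum.inr ())
    simp only [Fintype.sum_sum_type, Sum.elim_inr, Sum.elim_inl, Pi.zero_apply, map_zero, zero_mul,
      Finset.sum_const_zero, add_zero] at this
    rw [hx j, Finset.sum_mul]
    simpa [h2, mul_assoc] using this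
  refine (mul_eq_zero.1 h3).resolve_right fun h4 => hz0 ?_
  funext k
  cases k with
  | inl k => simp [h2 k, h4]
  | inr k => exact h4

theorem Rep.inv {x : ∀ i, MN (G i) K} (hx : Rep φ x) (h0 : ∀ i, x i ≠ 0) :
    Rep φ fun i => (x i)⁻¹ := by
  obtain ⟨n, hn, M, u, w, v, hM, hv, hx⟩ := hx
  refine ⟨n ⊕ Unit, inferInstance,
    Sum.elim (fun r => Sum.elim (M r) fun _ => -(w r)) (fun _ => Sum.elim u 0),
    Sum.elim 0 1, Sum.elim 0 1, fun i => Sum.elim (fun k => v i k * (x i)⁻¹) fun _ => (x i)⁻¹,
    fun i z hz => ?_, fun i r => ?_, fun i => ?_⟩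
  · have h1 : ∀ r, ∑ k, theta φ i (M r k) * (z (Sum.inl k) - v i k * z (Sum.inr ())) = 0 := by
      intro r
      have := hz (Sum.inl r)
      simp only [Fintype.sum_sum_type, Sum.elim_inl, Sum.elim_inr, map_neg, neg_mul,
        Finset.univ_unique, Finset.sum_singleton] at this
      simp only [mul_sub, ← mul_assoc, Finset.sum_sub_distrib, ← Finset.sum_mul, hv i r]
      rw [sub_eq_add_neg]
      exact this
    have h2 : ∀ k, z (Sum.inl k) = v i k * z (Sum.inr ()) := fun k =>
      sub_eq_zero.1 (congrFun (hM i _ h1) k)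
    have h3 : x i * z (Sum.inr ()) = 0 := by
      have := hz (Sum.inr ())
      simp only [Fintype.sum_sum_type, Sum.elim_inr, Sum.elim_inl, Pi.zero_apply, map_zero,
        zero_mul, Finset.sum_const_zero, add_zero] at this
      rw [hx i, Finset.sum_mul]
      simpa [h2, mul_assoc] using this
    have h4 := (mul_eq_zero.1 h3).resolve_left (h0 i)
    funext k
    cases k with
    | inl k => simp [h2 k, h4]
    | inr k => exact h4
  · cases r with
    | inl r =>
      simp [Fintype.sum_sum_type, ← mul_assoc, ← Finset.sum_mul, hv i r]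
    | inr r =>
      simp [Fintype.sum_sum_type, ← mul_assoc, ← Finset.sum_mul, ← hx i, mul_inv_cancel₀ (h0 i)]
  · simp [Fintype.sum_sum_type]

variable (φ) (K)

/-- The common division ring. -/
noncomputable def commonRing : Subring (∀ i, MN (G i) K) where
  carrier := {x | Rep φ x ∧ ∀ i, x i ∈ MN.supported K (φ i).range}
  zero_mem' := ⟨by simpa [Pi.zero_def] using rep_theta φ (0 : MonoidAlgebra K H),
    fun i => Subring.zero_mem _⟩
  one_mem' := ⟨by simpa [Pi.one_def] using rep_theta φ (1 : MonoidAlgebra K H),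
    fun i => Subring.one_mem _⟩
  add_mem' := fun hx hy => ⟨hx.1.add hy.1, fun i => Subring.add_mem _ (hx.2 i) (hy.2 i)⟩
  neg_mem' := fun hx => ⟨hx.1.neg, fun i => Subring.neg_mem _ (hx.2 i)⟩
  mul_mem' := fun hx hy => ⟨hx.1.mul hy.1, fun i => Subring.mul_mem _ (hx.2 i) (hy.2 i)⟩

/-- The group algebra of the common group inside the common ring. -/
noncomputable def toCommon : MonoidAlgebra K H →+* commonRing K φ :=
  (Pi.ringHom fun i => theta φ i).codRestrict _ fun p =>
    ⟨rep_theta φ p, fun i => theta_mem_supported φ i p⟩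

/-- The projection to one field. -/
noncomputable def commonHom (i : ι) : commonRing K φ →+* MN (G i) K :=
  (Pi.evalRingHom (fun i => MN (G i) K) i).comp (commonRing K φ).subtype

variable {K φ}

theorem commonHom_toCommon (i : ι) (p : MonoidAlgebra K H) :
    commonHom K φ i (toCommon K φ p) = theta φ i p := rfl

theorem commonHom_mem_supported (i : ι) (x : commonRing K φ) :
    commonHom K φ i x ∈ MN.supported K (φ i).range := x.2.2 i

theorem commonRing_isUnit_or_eq_zero (hT : Transfers K φ)
    (x : commonRing K φ) : IsUnit x ∨ x = 0 := by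
  by_cases hx : x = 0
  · exact Or.inr hx
  have h0 : ∀ i, (x : ∀ i, MN (G i) K) i ≠ 0 := fun i hi =>
    hx (Subtype.ext (x.2.1.eq_zero hT hi))
  let y : commonRing K φ := ⟨fun i => ((x : ∀ i, MN (G i) K) i)⁻¹,
    x.2.1.inv h0, fun i => MN.inv_mem_supported (x.2.2 i)⟩
  exact Or.inl ⟨⟨x, y, Subtype.ext (funext fun i => mul_inv_cancel₀ (h0 i)),
    Subtype.ext (funext fun i => inv_mul_cancel₀ (h0 i))⟩, rfl⟩

end Vale.Agent.P201
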