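import Vale.Agent.P201.Lead
import Vale.Agent.P201.Forest

/-!
A free group has the same singular matrices in all the series fields that contain it.
-/

namespace Vale.Agent.P201

set_option linter.unusedSectionVars false

open scoped MonoidAlgebra

variable {ι : Type*} {G : ι → Type*} [∀ i, Group (G i)] [∀ i, LinearOrder (G i)]
  [∀ i, MulLeftMono (G i)] [∀ i, MulRightMono (G i)] {K : Type*} [Field K]

section Group

variable {H : Type*} [Group H] (φ : ∀ i, H →* G i)

/-- The map from the group algebra of the common group to a series field. -/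
noncomputable def theta (i : ι) : MonoidAlgebra K H →+* MN (G i) K :=
  MonoidAlgebra.liftNCRingHom (algebraMap K (MN (G i) K)) (MN.ofGroup.comp (φ i))
    fun c g => Algebra.commutes c _

theorem theta_single (i : ι) (g : H) (c : K) :
    theta φ i (MonoidAlgebra.single g c) = algebraMap K (MN (G i) K) c * MN.ofGroup (φ i g) :=
  MonoidAlgebra.liftNCRingHom_single _ _ _ _ _

theorem theta_eq_sum (i : ι) (p : MonoidAlgebra K H) :
    theta φ i p = ∑ g ∈ p.coeff.support, algebraMap K (MN (G i) K) (p.coeff g) * MN.ofGroup (φ i g) := by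
  conv_lhs => rw [← MonoidAlgebra.sum_coeff_single p]
  rw [Finsupp.sum, map_sum]
  exact Finset.sum_congr rfl fun g _ => theta_single φ i g _

theorem theta_injective {i : ι} (hφ : Function.Injective (φ i)) :
    Function.Injective (theta (K := K) φ i) := by
  rw [injective_iff_map_eq_zero]
  intro p hp
  apply MonoidAlgebra.coeff_injective
  ext g
  by_contra hg
  have := congrArg (fun z => z.coeff (φ i g)) hp
  simp only [theta_eq_sum, MN.coeff_sum, MN.coeff_zero, Pi.zero_apply, MN.algebraMap_eq,
    MN.ofGroup_apply, MN.single_mul_single, one_mul, mul_one, MN.coeff_single] at this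
  rw [Finset.sum_eq_single g] at this
  · simp at this hg
    exact hg this
  · intro b _ hb
    rw [if_neg fun e => hb (hφ e.symm)]
  · intro hn
    simp at hn
    simp [hn]

theorem theta_mem_supported (i : ι) (p : MonoidAlgebra K H) :
    theta φ i p ∈ MN.supported K (φ i).range := by
  rw [theta_eq_sum]
  refine Subring.sum_mem _ fun g _ => Subring.mul_mem _ ?_ ?_
  · rw [MN.algebraMap_eq]; exact MN.single_mem_supported (one_mem _) _
  · exact MN.single_mem_supported (MonoidHom.mem_range.2 ⟨g, rfl⟩) _

variable (K) in
/-- A matrix over the group algebra of the common group that kills a nonzero vector in one series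
field kills a nonzero vector in all of them. -/
def Transfers : Prop :=
  ∀ (i j : ι) (R J : Type) [Fintype R] [Fintype J] (M : R → J → MonoidAlgebra K H)
    (v : J → MN (G i) K), v ≠ 0 → (∀ r, ∑ k, theta φ i (M r k) * v k = 0) →
    ∃ v' : J → MN (G j) K, v' ≠ 0 ∧ ∀ r, ∑ k, theta φ j (M r k) * v' k = 0

end Group

variable {α : Type*} (φ : ∀ i, FreeGroup α →* G i)

/-- The elements `1, x₁, …, xₘ`. -/
noncomputable def gen (S : Finset α) (i : ι) : Option S → MN (G i) K
  | none => 1
  | some x => MN.ofGroup (φ i (FreeGroup.of (x : α)))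

/-- The value of one linear equation. -/
noncomputable def evalEq {J : Type*} [Fintype J] (S : Finset α) (i : ι) (e : Option S → J → K)
    (v : J → MN (G i) K) : MN (G i) K :=
  ∑ o, gen φ S i o * ∑ k, e o k • v k

/-- Solvability of finite systems of linear equations passes between the fields. -/
theorem transfer_equations [DecidableEq α] (hφ : ∀ i, Function.Injective (φ i)) (i j : ι)
    (S : Finset α) {J : Type*} [Fintype J] (E : Set (Option S → J → K))
    (v : J → MN (G i) K) (hv : v ≠ 0) (hE : ∀ e ∈ E, evalEq φ S i e v = 0) :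
    ∃ v' : J → MN (G j) K, v' ≠ 0 ∧ ∀ e ∈ E, evalEq φ S j e v' = 0 := by
  classical
  set V : Submodule K (MN (G i) K) := Submodule.span K (Set.range v) with hV
  have : FiniteDimensional K V := FiniteDimensional.span_of_finite K (Set.finite_range v)
  set q := Module.finrank K V with hq
  let e : Module.Basis (Fin q) K V := Module.finBasis K V
  have hvV : ∀ k, v k ∈ V := fun k => Submodule.subset_span ⟨k, rfl⟩
  let P : J → Fin q → K := fun k a => e.repr ⟨v k, hvV k⟩ a
  have hvP : ∀ k, v k = ∑ a, P k a • (e a : MN (G i) K) := fun k => by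
    have := congrArg V.subtype (e.sum_repr ⟨v k, hvV k⟩)
    simp only [map_sum, map_smul, Submodule.subtype_apply] at this
    exact this.symm
  have hspan : ∀ a, ∃ c : J → K, ∑ k, c k • v k = (e a : MN (G i) K) := fun a =>
    Submodule.mem_span_range_iff_exists_fun K |>.1 (e a).2
  choose Q hQ using hspan
  have hQP : ∀ a b, ∑ k, Q a k * P k b = if a = b then 1 else 0 := by
    intro a b
    have h1 : e a = ∑ k, Q a k • (⟨v k, hvV k⟩ : V) := Subtype.ext (by simp [hQ a])
    have h2 := congrArg (fun z => e.repr z b) h1
    simp only [Module.Basis.repr_self, map_sum, map_smul, Finsupp.coe_finsetSum, Finset.sum_apply,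
      Finsupp.smul_apply, smul_eq_mul, Finsupp.single_apply] at h2
    exact h2.symm
  -- the map whose kernel holds all the relations
  let T : (Option S → Fin q → K) →ₗ[K] MN (G i) K :=
    { toFun := fun f => ∑ o, gen φ S i o * ∑ a, f o a • (e a : MN (G i) K)
      map_add' := fun f g => by
        simp [add_smul, Finset.sum_add_distrib, mul_add]
      map_smul' := fun c f => by
        simp only [RingHom.id_apply, Finset.smul_sum, Pi.smul_apply, smul_eq_mul, mul_smul]
        refine Finset.sum_congr rfl fun o _ => ?_
        rw [← Finset.smul_sum, mul_smul_comm] }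
  obtain ⟨L, hL, hlead⟩ := MN.exists_lead_set V
  have hq0 : 0 < q := by
    obtain ⟨k, hk⟩ := Function.ne_iff.1 hv
    rw [hq, Module.finrank_pos_iff_exists_ne_zero]
    exact ⟨⟨v k, hvV k⟩, fun h => hk (congrArg Subtype.val h)⟩
  have hLne : L.Nonempty := Finset.card_pos.1 (hL ▸ hq0)
  have hT : ∀ (o : Option S) (z : V), ∃ f, T f = gen φ S i o * (z : MN (G i) K) := by
    intro o z
    refine ⟨fun o' a => if o' = o then e.repr z a else 0, ?_⟩
    show ∑ o', gen φ S i o' * ∑ a, (if o' = o then e.repr z a else 0) • (e a : MN (G i) K) = _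
    rw [Finset.sum_eq_single o]
    · simp only [if_true]
      congr 1
      have := congrArg V.subtype (e.sum_repr z)
      simp only [map_sum, map_smul, Submodule.subtype_apply] at this
      exact this
    · intro b _ hb; simp [hb]
    · exact fun h => absurd (Finset.mem_univ _) h
  have himg : ∀ p ∈ outNbhd (φ i) S L, ∃ z ∈ LinearMap.range T, MN.IsLead z p := by
    intro p hp
    rcases mem_outNbhd.1 hp with hp | ⟨x, hx, l, hl, rfl⟩
    · obtain ⟨z, hz, hzl⟩ := hlead p hp
      obtain ⟨f, hf⟩ := hT none ⟨z, hz⟩
      exact ⟨z, ⟨f, by simpa [gen] using hf⟩, hzl⟩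
    · obtain ⟨z, hz, hzl⟩ := hlead l hl
      obtain ⟨f, hf⟩ := hT (some ⟨x, hx⟩) ⟨z, hz⟩
      refine ⟨MN.single (φ i (FreeGroup.of x)) 1 * z, ⟨f, by simpa [gen, MN.ofGroup_apply] using hf⟩,
        hzl.single_mul _⟩
  choose z hzT hzl using himg
  have hrange : S.card * q + 1 ≤ Module.finrank K (LinearMap.range T) := by
    have hli : LinearIndependent K fun p : outNbhd (φ i) S L =>
        (⟨z p p.2, hzT p p.2⟩ : LinearMap.range T) :=
      LinearIndependent.of_comp (LinearMap.range T).subtype
        (MN.linearIndependent_of_lead (fun p : outNbhd (φ i) S L => z p p.2)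
          (fun p => (p : G i)) Subtype.val_injective fun p => hzl p p.2)
    have h1 := hli.fintype_card_le_finrank
    have h2 := card_outNbhd (φ i) (hφ i) S L hLne
    rw [hL, ← hq] at h2
    simp only [Fintype.card_coe] at h1
    omega
  have hker : Module.finrank K (LinearMap.ker T) < q := by
    have h1 := LinearMap.finrank_range_add_finrank_ker T
    have h2 : Module.finrank K (Option S → Fin q → K) = (S.card + 1) * q := by
      simp [Module.finrank_pi_fintype, Fintype.card_option]
    rw [h2, add_mul, one_mul] at h1
    omega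
  set d := Module.finrank K (LinearMap.ker T)
  let b : Module.Basis (Fin d) K (LinearMap.ker T) := Module.finBasis K _
  let T' : (Fin q → MN (G j) K) →ₗ[(MN (G j) K)ᵐᵒᵖ] (Fin d → MN (G j) K) :=
    { toFun := fun y c => ∑ o, gen φ S j o * ∑ a, (b c : Option S → Fin q → K) o a • y a
      map_add' := fun y y' => by
        funext c
        simp [smul_add, Finset.sum_add_distrib, mul_add]
      map_smul' := fun r y => by
        funext c
        simp [MulOpposite.smul_eq_mul_unop, Finset.sum_mul, mul_assoc, smul_mul_assoc] }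
  have hone : ∀ (D : Type _) [DivisionRing D], Module.finrank Dᵐᵒᵖ D = 1 := fun D _ => by
    rw [← Module.finrank_self Dᵐᵒᵖ]
    exact LinearEquiv.finrank_eq
      { toFun := MulOpposite.op, invFun := MulOpposite.unop, left_inv := fun _ => rfl,
        right_inv := fun _ => rfl, map_add' := fun _ _ => rfl, map_smul' := fun _ _ => rfl }
  have hfin : Module.Finite (MN (G j) K)ᵐᵒᵖ (MN (G j) K) :=
    Module.finite_of_finrank_pos (by rw [hone]; exact one_pos)
  have hne : LinearMap.ker T' ≠ ⊥ := by
    refine LinearMap.ker_ne_bot_of_finrank_lt ?_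
    simp [Module.finrank_pi_fintype, hone, hker]
  obtain ⟨y, hy, hy0⟩ := (Submodule.ne_bot_iff _).1 hne
  refine ⟨fun k => ∑ a, P k a • y a, fun h0 => hy0 ?_, fun eq heq => ?_⟩
  · funext a
    have h3 : ∀ k, ∑ c, P k c • y c = 0 := fun k => congrFun h0 k
    have h4 : ∑ k, Q a k • ∑ c, P k c • y c = y a := by
      simp_rw [Finset.smul_sum, smul_smul]
      rw [Finset.sum_comm]
      simp_rw [← Finset.sum_smul, hQP]
      simp
    simpa [h3] using h4.symm
  · let f : Option S → Fin q → K := fun o a => ∑ k, eq o k * P k a
    have hf : f ∈ LinearMap.ker T := by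
      rw [LinearMap.mem_ker, ← hE eq heq]
      show ∑ o, gen φ S i o * ∑ a, f o a • (e a : MN (G i) K) = _
      refine Finset.sum_congr rfl fun o _ => ?_
      congr 1
      simp_rw [f, Finset.sum_smul]
      rw [Finset.sum_comm]
      refine Finset.sum_congr rfl fun k _ => ?_
      conv_rhs => rw [hvP k, Finset.smul_sum]
      simp [mul_smul]
    have hfb : f = ∑ c, b.repr ⟨f, hf⟩ c • (b c : Option S → Fin q → K) := by
      have := congrArg (LinearMap.ker T).subtype (b.sum_repr ⟨f, hf⟩)
      simp only [map_sum, map_smul, Submodule.subtype_apply] at this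
      exact this.symm
    have hyc : ∀ c, ∑ o, gen φ S j o * ∑ a, (b c : Option S → Fin q → K) o a • y a = 0 :=
      fun c => congrFun (LinearMap.mem_ker.1 hy) c
    have e1 : evalEq φ S j eq (fun k => ∑ a, P k a • y a)
        = ∑ o, gen φ S j o * ∑ a, f o a • y a := by
      refine Finset.sum_congr rfl fun o _ => ?_
      congr 1
      simp_rw [Finset.smul_sum, smul_smul, f, Finset.sum_smul]
      rw [Finset.sum_comm]
    rw [e1, hfb]
    simp only [Finset.sum_apply, Pi.smul_apply, smul_eq_mul, Finset.sum_smul, Finset.mul_sum]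
    rw [Finset.sum_congr rfl fun o _ => Finset.sum_comm, Finset.sum_comm]
    refine Finset.sum_eq_zero fun c _ => ?_
    have := congrArg (fun z => b.repr ⟨f, hf⟩ c • z) (hyc c)
    simpa [Finset.smul_sum, Finset.mul_sum, mul_smul] using this

end Vale.Agent.P201
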